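import Vale.Agent.P193.Bh.Group.Swindle

/-!
# P193 M1: the linear group with permutations of the indices, concretely
-/

namespace Vale.Agent.P193.Bh.Linear

open scoped Classical commutatorElement

noncomputable section

variable {S A : Type} [Ring A] [Algebra (ZMod 2) A]

lemma two_eq_zero : (2 : A) = 0 := by
  have h := congrArg (algebraMap (ZMod 2) A) (show (2 : ZMod 2) = 0 by decide)
  simpa [map_ofNat] using h

lemma add_self_zero (r : A) : r + r = 0 := by rw [← two_mul, two_eq_zero, zero_mul]

lemma neg_eq (r : A) : -r = r := neg_eq_of_add_eq_zero_left (add_self_zero r)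

/-- A letter as a permutation of the vectors (trivial for equal indices). -/
def X (a b : S) (r : A) : Equiv.Perm (S →₀ A) :=
  Function.Involutive.toPerm (fun v => if a = b then v else stepVec a b r v) fun v => by
    by_cases h : a = b
    · simp [h]
    · simp only [if_neg h]
      exact stepVec_self two_eq_zero h r v

lemma X_apply {a b : S} (h : a ≠ b) (r : A) (v : S →₀ A) :
    X a b r v = v + Finsupp.single a (r * v b) := by
  simp [X, h, stepVec]

lemma X_apply_coord {a b : S} (h : a ≠ b) (r : A) (v : S →₀ A) (c : S) :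
    X a b r v c = if c = a then v c + r * v b else v c := by
  rw [X_apply h, Finsupp.add_apply, Finsupp.single_apply]
  by_cases hc : c = a
  · simp [hc]
  · simp [hc, Ne.symm hc]

lemma X_self (a b : S) (r : A) : X a b r * X a b r = 1 :=
  Equiv.ext fun v => (X a b r).left_inv v

lemma X_inv (a b : S) (r : A) : (X a b r)⁻¹ = X a b r :=
  inv_eq_of_mul_eq_one_right (X_self a b r)

/-- Permutations of the coordinates. -/
def permV : Equiv.Perm S →* Equiv.Perm (S →₀ A) where
  toFun p := (Finsupp.domCongr (M := A) p).toEquiv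
  map_one' := by ext v i; simp [Equiv.Perm.one_def]
  map_mul' p q := by ext v i; simp [Equiv.Perm.mul_def]

omit [Algebra (ZMod 2) A] in
lemma permV_apply (p : Equiv.Perm S) (v : S →₀ A) (i : S) : permV p v i = v (p.symm i) := by
  simp [permV]

lemma permV_conj (p : Equiv.Perm S) {a b : S} (h : a ≠ b) (r : A) :
    permV p * X a b r * (permV p)⁻¹ = X (p a) (p b) r := by
  rw [mul_inv_eq_iff_eq_mul]
  refine Equiv.ext fun v => Finsupp.ext fun i => ?_
  have h' : p a ≠ p b := p.injective.ne h
  simp only [Equiv.Perm.mul_apply, permV_apply, X_apply_coord h, X_apply_coord h',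
    Equiv.symm_apply_apply, Equiv.symm_apply_eq]

theorem isSteinberg_X : IsSteinberg (X : S → S → A → Equiv.Perm (S →₀ A)) where
  add a b r s h := Equiv.ext fun v => Finsupp.ext fun i => by
    simp only [Equiv.Perm.mul_apply, X_apply_coord h, if_neg h.symm]
    by_cases hi : i = a <;> simp [hi, add_mul, add_comm, add_left_comm]
  chain a b c r s hab hbc hac := Equiv.ext fun v => Finsupp.ext fun i => by
    simp only [X_inv, Equiv.Perm.mul_apply, X_apply_coord hab, X_apply_coord hbc,
      X_apply_coord hac, if_neg hab.symm, if_neg hbc.symm, if_neg hac.symm]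
    by_cases hia : i = a
    · subst hia
      simp only [if_true, if_neg hab]
      simp only [mul_add, ← mul_assoc]
      abel_nf
      simp [two_eq_zero,
        show (3 : A) = 1 by rw [show (3 : A) = 2 + 1 by norm_num, two_eq_zero, zero_add]]
    · by_cases hib : i = b
      · subst hib
        simp only [if_true, if_neg hia]
        rw [add_assoc, add_self_zero, add_zero]
      · simp [hia, hib]
  comm a b c d r s hab hcd hbc had := Equiv.ext fun v => Finsupp.ext fun i => by
    simp only [Equiv.Perm.mul_apply, X_apply_coord hab, X_apply_coord hcd, if_neg hbc,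
      if_neg had.symm]
    by_cases hia : i = a <;> by_cases hic : i = c
    · subst hia; subst hic; simp [add_right_comm]
    · subst hia; simp [hic]
    · subst hic; simp [hia]
    · simp [hia, hic]

lemma wordX_apply (w : List (S × S × A)) (hw : ∀ l ∈ w, l.1 ≠ l.2.1) (v : S →₀ A) :
    wordX X w v = wordVec w v := by
  induction w with
  | nil => simp [wordX, wordVec]
  | cons l w ih =>
    rw [wordX_cons, Equiv.Perm.mul_apply, ih fun m hm => hw m (List.mem_cons_of_mem _ hm),
      X_apply (hw l (List.mem_cons_self ..))]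
    rfl

/-- Multiplication of every entry on the right. -/
def rmul (v : S →₀ A) (s : A) : S →₀ A := v.mapRange (· * s) (zero_mul s)

omit [Algebra (ZMod 2) A] in
@[simp] lemma rmul_apply (v : S →₀ A) (s : A) (i : S) : rmul v s i = v i * s := rfl

/-- Permutations linear for the right module structure. -/
def rightLinear : Subgroup (Equiv.Perm (S →₀ A)) where
  carrier := {g | (∀ u v, g (u + v) = g u + g v) ∧ ∀ v s, g (rmul v s) = rmul (g v) s}
  one_mem' := ⟨fun _ _ => rfl, fun _ _ => rfl⟩
  mul_mem' {g h} hg hh := ⟨fun u v => by simp [hh.1, hg.1], fun v s => by simp [hh.2, hg.2]⟩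
  inv_mem' {g} hg := ⟨fun u v => g.injective (by simp [hg.1]), fun v s => g.injective (by simp [hg.2])⟩

lemma X_mem_rightLinear (a b : S) (r : A) : X a b r ∈ rightLinear := by
  by_cases h : a = b
  · have : X a b r = 1 := Equiv.ext fun v => by simp [X, h]
    rw [this]; exact one_mem _
  · refine ⟨fun u v => Finsupp.ext fun i => ?_, fun v s => Finsupp.ext fun i => ?_⟩
    · simp only [Finsupp.add_apply, X_apply_coord h]
      by_cases hi : i = a <;> simp [hi, mul_add, add_add_add_comm]
    · simp only [rmul_apply, X_apply_coord h]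
      by_cases hi : i = a <;> simp [hi, add_mul, mul_assoc]

omit [Algebra (ZMod 2) A] in
lemma permV_mem_rightLinear (p : Equiv.Perm S) : permV p ∈ rightLinear (A := A) :=
  ⟨fun u v => Finsupp.ext fun i => by simp [permV_apply],
    fun v s => Finsupp.ext fun i => by simp [permV_apply]⟩

variable (P : Type) [Group P] [MulAction P S]

variable (A) in
/-- The coordinate permutation of a group element. -/
def perm : P →* Equiv.Perm (S →₀ A) := permV.comp (MulAction.toPermHom P S)

omit [Algebra (ZMod 2) A] in
lemma perm_apply (p : P) (v : S →₀ A) (i : S) : perm A P p v i = v (p⁻¹ • i) := by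
  simp [perm, permV_apply]

lemma perm_conj (p : P) {a b : S} (h : a ≠ b) (r : A) :
    perm A P p * X a b r * (perm A P p)⁻¹ = X (p • a) (p • b) r :=
  permV_conj (MulAction.toPermHom P S p) h r

variable (S A) in
/-- The group generated by the letters and the coordinate permutations. -/
def lin : Subgroup (Equiv.Perm (S →₀ A)) :=
  Subgroup.closure ({g | ∃ (a b : S) (r : A), a ≠ b ∧ g = X a b r} ∪ Set.range (perm A P (S := S)))

lemma lin_le : lin S A P ≤ rightLinear :=
  (Subgroup.closure_le _).2 <| by
    rintro g (⟨a, b, r, -, rfl⟩ | ⟨p, rfl⟩)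
    · exact X_mem_rightLinear a b r
    · exact permV_mem_rightLinear _

lemma X_mem_lin {a b : S} (h : a ≠ b) (r : A) : X a b r ∈ lin S A P :=
  Subgroup.subset_closure (Or.inl ⟨a, b, r, h, rfl⟩)

lemma perm_mem_lin (p : P) : perm A P p ∈ lin S A P :=
  Subgroup.subset_closure (Or.inr ⟨p, rfl⟩)

lemma wordX_mem_lin (w : List (S × S × A)) (hw : ∀ l ∈ w, l.1 ≠ l.2.1) :
    wordX X w ∈ lin S A P := by
  refine list_prod_mem ?_
  intro g hg
  obtain ⟨l, hl, rfl⟩ := List.mem_map.1 hg
  exact X_mem_lin P (hw l hl) _

end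

/-- Normal form in any group with a Steinberg family and a group permuting it. -/
theorem exists_normal_form {S R K P : Type} [Ring R] [Group K] [Group P] [MulAction P S]
    {x : S → S → R → K} {π : P →* K}
    (heq : ∀ p a b r, a ≠ b → π p * x a b r * (π p)⁻¹ = x (p • a) (p • b) r)
    (hinv : ∀ a b r, a ≠ b → (x a b r)⁻¹ = x a b r) {g : K}
    (hg : g ∈ Subgroup.closure ({g | ∃ a b r, a ≠ b ∧ g = x a b r} ∪ Set.range π)) :
    ∃ (w : List (S × S × R)) (p : P), (∀ l ∈ w, l.1 ≠ l.2.1) ∧ g = wordX x w * π p := by
  have hconj : ∀ (p : P) (w : List (S × S × R)), (∀ l ∈ w, l.1 ≠ l.2.1) →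
      π p * wordX x w = wordX x (w.map fun l => (p • l.1, p • l.2.1, l.2.2)) * π p := by
    intro p w hw
    induction w with
    | nil => simp [wordX]
    | cons l w ih =>
      rw [List.map_cons, wordX_cons, wordX_cons, ← mul_assoc,
        mul_inv_eq_iff_eq_mul.1 (heq p l.1 l.2.1 l.2.2 (hw l (List.mem_cons_self ..))),
        mul_assoc, ih fun m hm => hw m (List.mem_cons_of_mem _ hm)]
      simp [mul_assoc]
  have hdist : ∀ (p : P) (w : List (S × S × R)), (∀ l ∈ w, l.1 ≠ l.2.1) →
      ∀ l ∈ w.map (fun l => (p • l.1, p • l.2.1, l.2.2)), l.1 ≠ l.2.1 := by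
    intro p w hw l hl
    obtain ⟨m, hm, rfl⟩ := List.mem_map.1 hl
    exact fun e => hw m hm (smul_left_cancel p e)
  induction hg using Subgroup.closure_induction with
  | mem g hg =>
    rcases hg with ⟨a, b, r, hab, rfl⟩ | ⟨p, rfl⟩
    · exact ⟨[(a, b, r)], 1, by simpa using hab, by simp [wordX]⟩
    · exact ⟨[], p, by simp, by simp [wordX]⟩
  | one => exact ⟨[], 1, by simp, by simp [wordX]⟩
  | mul g h _ _ ihg ihh =>
    obtain ⟨w, p, hw, rfl⟩ := ihg
    obtain ⟨w', p', hw', rfl⟩ := ihh
    refine ⟨w ++ w'.map (fun l => (p • l.1, p • l.2.1, l.2.2)), p * p', ?_, ?_⟩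
    · intro l hl
      rcases List.mem_append.1 hl with hl | hl
      · exact hw l hl
      · exact hdist p w' hw' l hl
    · rw [show wordX x w * π p * (wordX x w' * π p') = wordX x w * (π p * wordX x w') * π p' by
        group, hconj p w' hw', map_mul]
      simp [wordX, mul_assoc]
  | inv g _ ih =>
    obtain ⟨w, p, hw, rfl⟩ := ih
    have hrev : (wordX x w)⁻¹ = wordX x w.reverse := by
      simp only [wordX, List.prod_inv_reverse, List.map_reverse]
      congr 1
      congr 1
      rw [List.map_map]
      exact List.map_congr_left fun l hl => hinv _ _ _ (hw l hl)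
    have hw' : ∀ l ∈ w.reverse, l.1 ≠ l.2.1 := fun l hl => hw l (List.mem_reverse.1 hl)
    refine ⟨w.reverse.map fun l => (p⁻¹ • l.1, p⁻¹ • l.2.1, l.2.2), p⁻¹, hdist _ _ hw', ?_⟩
    rw [mul_inv_rev, hrev, ← map_inv, hconj p⁻¹ _ hw']

end Vale.Agent.P193.Bh.Linear
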