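import Vale.Agent.P193.Bh.Group.Defs

/-!
# P193 M1: from letters on generators to a Steinberg family over the free algebra

Elements `x a b i` (`i = 0` for the unit, `i.succ` for the generators) satisfying the finitely many
types of relations among letters extend to a Steinberg family over the free algebra.
-/

namespace Vale.Agent.P193.Bh.Linear

open scoped commutatorElement

variable {K : Type} [Group K] {S : Type} [Infinite S] {n : ℕ}

/-- Relations among the letters on generators. -/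
structure GenRel (x : S → S → Fin (n + 1) → K) : Prop where
  sq : ∀ a b i, a ≠ b → x a b i * x a b i = 1
  comm : ∀ a b c d i j, a ≠ b → c ≠ d → b ≠ c → a ≠ d → Commute (x a b i) (x c d j)
  indep : ∀ a b b' c i j, a ≠ b → b ≠ c → a ≠ c → a ≠ b' → b' ≠ c →
    ⁅x a b i, x b c j⁆ = ⁅x a b' i, x b' c j⁆
  one_left : ∀ a b c i, a ≠ b → b ≠ c → a ≠ c → ⁅x a b 0, x b c i⁆ = x a c i
  one_right : ∀ a b c i, a ≠ b → b ≠ c → a ≠ c → ⁅x a b i, x b c 0⁆ = x a c i

lemma exists_avoid (l : List S) : ∃ d, d ∉ l := by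
  classical
  obtain ⟨d, hd⟩ := Infinite.exists_notMem_finset l.toFinset
  exact ⟨d, fun h => hd (List.mem_toFinset.2 h)⟩

/-- A chosen index different from two given ones. -/
noncomputable def mid (a c : S) : S := (exists_avoid [a, c]).choose

lemma mid_spec (a c : S) : a ≠ mid a c ∧ mid a c ≠ c := by
  have h : mid a c ∉ [a, c] := (exists_avoid [a, c]).choose_spec
  exact ⟨fun e => h (by simp [← e]), fun e => h (by simp [e])⟩

/-- Iterated commutators along a monomial. -/
noncomputable def mono (x : S → S → Fin (n + 1) → K) : S → S → List (Fin n) → K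
  | a, c, [] => x a c 0
  | a, c, i :: m => ⁅x a (mid a c) i.succ, mono x (mid a c) c m⁆

lemma commute_commutator {g u v : K} (hu : Commute g u) (hv : Commute g v) :
    Commute g ⁅u, v⁆ := by
  rw [commutatorElement_def]
  exact ((hu.mul_right hv).mul_right hu.inv_right).mul_right hv.inv_right

/-- The identity replacing the Hall-Witt identity. -/
lemma commutator_assoc {X Y Z : K} (hXZ : Commute X Z) (hCW : Commute ⁅X, Y⁆ ⁅Y, Z⁆)
    (hWZ : Commute ⁅Y, Z⁆ Z) : ⁅X, ⁅Y, Z⁆⁆ = ⁅⁅X, Y⁆, Z⁆ := by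
  set C := ⁅X, Y⁆ with hC
  set W := ⁅Y, Z⁆ with hW
  have hXYX : X * Y * X⁻¹ = C * Y := by rw [hC, commutatorElement_def]; group
  have h1 : X * W * X⁻¹ = ⁅X * Y * X⁻¹, X * Z * X⁻¹⁆ := by
    rw [hW, commutatorElement_def, commutatorElement_def]; group
  have h2 : X * Z * X⁻¹ = Z := by rw [hXZ.eq]; group
  rw [h2, hXYX] at h1
  have h3 : ⁅C * Y, Z⁆ = C * W * C⁻¹ * ⁅C, Z⁆ := by
    rw [hW, commutatorElement_def, commutatorElement_def, commutatorElement_def]; group
  have h4 : C * W * C⁻¹ = W := by rw [hCW.eq]; group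
  have h5 : Commute W ⁅C, Z⁆ := commute_commutator hCW.symm hWZ
  rw [commutatorElement_def X W, h1, h3, h4, h5.eq]
  group

lemma commutator_sq {X Y : K} (hX : X * X = 1) (h : Commute ⁅X, Y⁆ X) :
    ⁅X, Y⁆ * ⁅X, Y⁆ = 1 := by
  have hi : X⁻¹ = X := inv_eq_of_mul_eq_one_right hX
  calc ⁅X, Y⁆ * ⁅X, Y⁆ = X * ⁅X, Y⁆ * X⁻¹ * ⁅X, Y⁆ := by rw [← h.eq]; group
    _ = 1 := by
      rw [commutatorElement_def, hi]
      calc X * (X * Y * X * Y⁻¹) * X * (X * Y * X * Y⁻¹)
          = (X * X) * Y * X * Y⁻¹ * (X * X) * Y * X * Y⁻¹ := by group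
        _ = Y * X * X * Y⁻¹ := by rw [hX]; group
        _ = 1 := by rw [mul_assoc Y X X, hX]; group

variable {x : S → S → Fin (n + 1) → K}

/-- A value does not depend on the middle index. -/
def Ind (x : S → S → Fin (n + 1) → K) (m : List (Fin n)) : Prop :=
  ∀ a b b' c j, a ≠ b → b ≠ c → a ≠ c → a ≠ b' → b' ≠ c →
    ⁅x a b j, mono x b c m⁆ = ⁅x a b' j, mono x b' c m⁆

/-- Whatever commutes with the letters commutes with the monomials. -/
def Cy (x : S → S → Fin (n + 1) → K) (m : List (Fin n)) : Prop :=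
  ∀ (g : K) (a c p q : S), p ≠ q → q ≠ a → p ≠ c →
    (∀ p' q' j, p' ≠ q' → q' ≠ a → p' ≠ c → Commute g (x p' q' j)) → Commute g (mono x p q m)

lemma cy_cons (i : Fin n) (m : List (Fin n)) (h : Ind x m) (hc : Cy x m) : Cy x (i :: m) := by
  intro g a c p q hpq hqa hpc hg
  obtain ⟨d, hd⟩ := exists_avoid [p, q, a, c]
  simp only [List.mem_cons, List.not_mem_nil, or_false, not_or] at hd
  obtain ⟨hdp, hdq, hda, hdc⟩ := hd
  have e := h p (mid p q) d q i.succ (mid_spec p q).1 (mid_spec p q).2 hpq (Ne.symm hdp) hdq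
  show Commute g ⁅x p (mid p q) i.succ, mono x (mid p q) q m⁆
  rw [e]
  exact commute_commutator (hg p d _ (Ne.symm hdp) hda hpc) (hc g a c d q hdq hqa hdc hg)

lemma commute_letter (hx : GenRel x) {m : List (Fin n)} (hm : Cy x m) {a b p q : S} (j : Fin (n + 1))
    (hab : a ≠ b) (hpq : p ≠ q) (hbp : b ≠ p) (haq : a ≠ q) :
    Commute (x a b j) (mono x p q m) :=
  hm _ a b p q hpq (Ne.symm haq) (Ne.symm hbp) fun p' q' i h h1 h2 =>
    hx.comm a b p' q' j i hab h (Ne.symm h2) (Ne.symm h1)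

lemma commute_mono (hx : GenRel x) {m m' : List (Fin n)} (hm : Cy x m) (hm' : Cy x m')
    {a b p q : S} (hab : a ≠ b) (hpq : p ≠ q) (hbp : b ≠ p) (haq : a ≠ q) :
    Commute (mono x a b m) (mono x p q m') :=
  hm' _ a b p q hpq (Ne.symm haq) (Ne.symm hbp) fun _ _ i h h1 h2 =>
    (commute_letter hx hm i h hab h1 h2).symm

lemma ind_and_cy (hx : GenRel x) : ∀ m : List (Fin n), Ind x m ∧ Cy x m := by
  intro m
  induction m with
  | nil =>
    exact ⟨fun a b b' c j h1 h2 h3 h4 h5 => hx.indep a b b' c j 0 h1 h2 h3 h4 h5,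
      fun g a c p q hpq hqa hpc hg => hg p q 0 hpq hqa hpc⟩
  | cons i m ih =>
    obtain ⟨hI, hC⟩ := ih
    have hC' := cy_cons i m hI hC
    refine ⟨fun a b b' c j hab hbc hac hab' hb'c => ?_, hC'⟩
    obtain ⟨d, hd⟩ := exists_avoid [a, b, b', c]
    obtain ⟨e, he⟩ := exists_avoid [a, b, b', c, d]
    simp only [List.mem_cons, List.not_mem_nil, or_false, not_or] at hd he
    obtain ⟨hda, hdb, hdb', hdc⟩ := hd
    obtain ⟨hea, heb, heb', hec, hed⟩ := he
    have key : ∀ β : S, a ≠ β → β ≠ c → d ≠ β → e ≠ β →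
        ⁅x a β j, mono x β c (i :: m)⁆ = ⁅⁅x a e j, x e d i.succ⁆, mono x d c m⁆ := by
      intro β haβ hβc hdβ heβ
      have h1 : mono x β c (i :: m) = ⁅x β d i.succ, mono x d c m⁆ :=
        hI β (mid β c) d c _ (mid_spec β c).1 (mid_spec β c).2 hβc (Ne.symm hdβ) hdc
      have h2 : ⁅x a β j, x β d i.succ⁆ = ⁅x a e j, x e d i.succ⁆ :=
        hx.indep a β e d j i.succ haβ (Ne.symm hdβ) (Ne.symm hda) (Ne.symm hea) hed
      rw [h1, ← h2]
      refine commutator_assoc (commute_letter hx hC j haβ hdc (Ne.symm hdβ) hac) ?_ ?_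
      · rw [h2, ← h1]
        exact (commute_commutator (commute_letter hx hC' j (Ne.symm hea) hβc heβ hac).symm
          (commute_letter hx hC' i.succ hed hβc hdβ hec).symm).symm
      · rw [← h1]
        exact commute_mono hx hC' hC hβc hdc (Ne.symm hdc) hβc
    rw [key b hab hbc hdb heb, key b' hab' hb'c hdb' heb']

lemma mono_cons (hx : GenRel x) {a b c : S} (i : Fin n) (m : List (Fin n)) (hab : a ≠ b)
    (hbc : b ≠ c) (hac : a ≠ c) : ⁅x a b i.succ, mono x b c m⁆ = mono x a c (i :: m) :=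
  ((ind_and_cy hx m).1 a (mid a c) b c i.succ (mid_spec a c).1 (mid_spec a c).2 hac hab hbc).symm

lemma mono_zero (hx : GenRel x) {a b c : S} (m : List (Fin n)) (hab : a ≠ b) (hbc : b ≠ c)
    (hac : a ≠ c) : ⁅x a b 0, mono x b c m⁆ = mono x a c m := by
  match m with
  | [] => exact hx.one_left a b c 0 hab hbc hac
  | i :: m =>
    obtain ⟨d, hd⟩ := exists_avoid [a, b, c]
    simp only [List.mem_cons, List.not_mem_nil, or_false, not_or] at hd
    obtain ⟨hda, hdb, hdc⟩ := hd
    have hC := (ind_and_cy hx m).2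
    have hC' := (ind_and_cy hx (i :: m)).2
    rw [← mono_cons hx i m (Ne.symm hdb) hdc hbc, ← mono_cons hx i m (Ne.symm hda) hdc hac,
      ← hx.one_left a b d i.succ hab (Ne.symm hdb) (Ne.symm hda)]
    refine commutator_assoc (commute_letter hx hC 0 hab hdc (Ne.symm hdb) hac) ?_ ?_
    · rw [hx.one_left a b d i.succ hab (Ne.symm hdb) (Ne.symm hda),
        mono_cons hx i m (Ne.symm hdb) hdc hbc]
      exact commute_letter hx hC' _ (Ne.symm hda) hbc hdb hac
    · rw [mono_cons hx i m (Ne.symm hdb) hdc hbc]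
      exact commute_mono hx hC' hC hbc hdc (Ne.symm hdc) hbc

lemma mono_append (hx : GenRel x) : ∀ (m m' : List (Fin n)) {a b c : S}, a ≠ b → b ≠ c → a ≠ c →
    ⁅mono x a b m, mono x b c m'⁆ = mono x a c (m ++ m') := by
  intro m
  induction m with
  | nil => intro m' a b c hab hbc hac; exact mono_zero hx m' hab hbc hac
  | cons i m ih =>
    intro m' a b c hab hbc hac
    obtain ⟨d, hd⟩ := exists_avoid [a, b, c]
    simp only [List.mem_cons, List.not_mem_nil, or_false, not_or] at hd
    obtain ⟨hda, hdb, hdc⟩ := hd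
    have hc := fun l => (ind_and_cy hx l).2
    rw [← mono_cons hx i m (Ne.symm hda) hdb hab, List.cons_append,
      ← mono_cons hx i (m ++ m') (Ne.symm hda) hdc hac, ← ih m' hdb hbc hdc]
    refine (commutator_assoc (commute_letter hx (hc m') _ (Ne.symm hda) hbc hdb hac) ?_ ?_).symm
    · rw [ih m' hdb hbc hdc, mono_cons hx i m (Ne.symm hda) hdb hab]
      exact commute_mono hx (hc _) (hc _) hab hdc (Ne.symm hdb) hac
    · rw [ih m' hdb hbc hdc]
      exact commute_mono hx (hc _) (hc _) hdc hbc (Ne.symm hbc) hdc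

lemma mono_sq (hx : GenRel x) : ∀ (m : List (Fin n)) {a c : S}, a ≠ c →
    mono x a c m * mono x a c m = 1 := by
  intro m a c hac
  match m with
  | [] => exact hx.sq a c 0 hac
  | i :: m =>
    exact commutator_sq (hx.sq a (mid a c) _ (mid_spec a c).1)
      (commute_letter hx (ind_and_cy hx (i :: m)).2 _ (mid_spec a c).1 hac (mid_spec a c).1.symm
        hac).symm

open FreeAlgebra in
lemma basis_apply (m : FreeMonoid (Fin n)) :
    basisFreeMonoid (ZMod 2) (Fin n) m = FreeMonoid.lift (ι (ZMod 2)) m := by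
  simp [basisFreeMonoid, equivMonoidAlgebraFreeMonoid]

/-- The extension to the free algebra on one pair. -/
lemma exists_ext (hx : GenRel x) {a c : S} (hac : a ≠ c) :
    ∃ X : FreeAlgebra (ZMod 2) (Fin n) → K, (∀ f g, X (f + g) = X f * X g) ∧
      ∀ m : FreeMonoid (Fin n),
        X (FreeMonoid.lift (FreeAlgebra.ι (ZMod 2)) m) = mono x a c m.toList := by
  let H : Subgroup K := Subgroup.closure (Set.range (mono x a c))
  have hc : ∀ g ∈ Set.range (mono x a c), ∀ g' ∈ Set.range (mono x a c), g * g' = g' * g := by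
    rintro _ ⟨m, rfl⟩ _ ⟨m', rfl⟩
    exact commute_mono hx (ind_and_cy hx m).2 (ind_and_cy hx m').2 hac hac hac.symm hac
  let _ : CommGroup H :=
    { (inferInstance : Group H) with
      mul_comm := fun u v => Subtype.ext <|
        Subgroup.closure_induction₂ (p := fun u v _ _ => u * v = v * u)
          (fun u v hu hv => hc u hu v hv) (fun _ _ => by simp) (fun _ _ => by simp)
          (fun u v w _ _ _ h1 h2 => (Commute.mul_left h1 h2).eq)
          (fun u v w _ _ _ h1 h2 => (Commute.mul_right h1 h2).eq)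
          (fun u v _ _ h => (Commute.inv_left h).eq) (fun u v _ _ h => (Commute.inv_right h).eq)
          u.2 v.2 }
  have h2 : ∀ u : H, u * u = 1 := by
    rintro ⟨u, hu⟩
    induction hu using Subgroup.closure_induction with
    | mem u h => obtain ⟨m, rfl⟩ := h; exact Subtype.ext (mono_sq hx m hac)
    | one => simp
    | mul u v hu hv h1 h3 =>
      show (⟨u, hu⟩ * ⟨v, hv⟩ : H) * (⟨u, hu⟩ * ⟨v, hv⟩) = 1
      rw [mul_mul_mul_comm, h1, h3, one_mul]
    | inv u hu h =>
      show (⟨u, hu⟩ : H)⁻¹ * (⟨u, hu⟩ : H)⁻¹ = 1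
      rw [← mul_inv, h, inv_one]
  let _ : Module (ZMod 2) (Additive H) := AddCommGroup.zmodModule fun u => by
    rw [two_nsmul]; exact h2 u.toMul
  let L : FreeAlgebra (ZMod 2) (Fin n) →ₗ[ZMod 2] Additive H :=
    (FreeAlgebra.basisFreeMonoid (ZMod 2) (Fin n)).constr ℕ
      fun m => Additive.ofMul (⟨mono x a c m.toList, Subgroup.subset_closure ⟨_, rfl⟩⟩ : H)
  refine ⟨fun f => ((L f).toMul : H), fun f g => by simp [map_add], fun m => ?_⟩
  rw [← basis_apply]
  show (((L _).toMul : H) : K) = _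
  rw [Module.Basis.constr_basis]
  rfl

lemma commutator_bilin {u v w : K} (h : Commute u ⁅v, w⁆) :
    ⁅u * v, w⁆ = ⁅v, w⁆ * ⁅u, w⁆ := by
  have : ⁅u * v, w⁆ = u * ⁅v, w⁆ * u⁻¹ * ⁅u, w⁆ := by
    simp only [commutatorElement_def]; group
  rw [this, h.eq]; group

lemma commutator_bilin' {u v w : K} (h : Commute v ⁅u, w⁆) :
    ⁅u, v * w⁆ = ⁅u, v⁆ * ⁅u, w⁆ := by
  have : ⁅u, v * w⁆ = ⁅u, v⁆ * (v * ⁅u, w⁆ * v⁻¹) := by
    simp only [commutatorElement_def]; group
  rw [this, h.eq]; group

open FreeAlgebra in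
/-- The Steinberg family over the free algebra. -/
theorem exists_steinberg (hx : GenRel x) :
    ∃ X : S → S → FreeAlgebra (ZMod 2) (Fin n) → K, IsSteinberg X ∧
      (∀ a b, a ≠ b → X a b 1 = x a b 0) ∧
      ∀ a b i, a ≠ b → X a b (ι (ZMod 2) i) = x a b i.succ := by
  classical
  choose F hadd hmono using fun (p : {p : S × S // p.1 ≠ p.2}) => exists_ext hx p.2
  let X : S → S → FreeAlgebra (ZMod 2) (Fin n) → K := fun a b f =>
    if h : a ≠ b then F ⟨(a, b), h⟩ f else 1
  have hXadd : ∀ a b f g, a ≠ b → X a b (f + g) = X a b f * X a b g := fun a b f g h => by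
    simp only [X, dif_pos h, hadd]
  have hX0 : ∀ a b, a ≠ b → X a b 0 = 1 := fun a b h => by
    have h0 := hXadd a b 0 0 h
    rw [add_zero] at h0
    exact mul_left_cancel (h0.symm.trans (mul_one _).symm)
  have hXm : ∀ a b, a ≠ b → ∀ m : FreeMonoid (Fin n),
      X a b (FreeMonoid.lift (ι (ZMod 2)) m) = mono x a b m.toList := fun a b h m => by
    simp only [X, dif_pos h, hmono]
  let T : Set (FreeAlgebra (ZMod 2) (Fin n)) := Set.range (FreeMonoid.lift (ι (ZMod 2)))
  have hspan : ∀ f, f ∈ Submodule.span (ZMod 2) T := fun f => by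
    have := (basisFreeMonoid (ZMod 2) (Fin n)).mem_span f
    refine Submodule.span_mono ?_ this
    rintro _ ⟨m, rfl⟩
    exact ⟨m, (basis_apply m).symm⟩
  have hz : ∀ z : ZMod 2, z = 0 ∨ z = 1 := by decide
  have hcomm : ∀ a b c d f g, a ≠ b → c ≠ d → b ≠ c → a ≠ d → Commute (X a b f) (X c d g) := by
    intro a b c d f g hab hcd hbc had
    induction hspan f using Submodule.span_induction with
    | zero => rw [hX0 a b hab]; exact Commute.one_left _
    | add f1 f2 _ _ h1 h2 => rw [hXadd a b f1 f2 hab]; exact h1.mul_left h2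
    | smul z f1 _ h1 =>
      rcases hz z with rfl | rfl
      · rw [zero_smul, hX0 a b hab]; exact Commute.one_left _
      · rwa [one_smul]
    | mem f1 hf1 =>
      obtain ⟨m, rfl⟩ := hf1
      induction hspan g using Submodule.span_induction with
      | zero => rw [hX0 c d hcd]; exact Commute.one_right _
      | add g1 g2 _ _ h1 h2 => rw [hXadd c d g1 g2 hcd]; exact h1.mul_right h2
      | smul z g1 _ h1 =>
        rcases hz z with rfl | rfl
        · rw [zero_smul, hX0 c d hcd]; exact Commute.one_right _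
        · rwa [one_smul]
      | mem g1 hg1 =>
        obtain ⟨m', rfl⟩ := hg1
        rw [hXm a b hab, hXm c d hcd]
        exact commute_mono hx (ind_and_cy hx _).2 (ind_and_cy hx _).2 hab hcd hbc had
  refine ⟨X, ⟨fun a b f g h => hXadd a b f g h, ?_, hcomm⟩, fun a b h => ?_, fun a b i h => ?_⟩
  · intro a b c f g hab hbc hac
    show ⁅X a b f, X b c g⁆ = X a c (f * g)
    induction hspan f using Submodule.span_induction with
    | zero => rw [hX0 a b hab, zero_mul, hX0 a c hac, commutatorElement_one_left]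
    | smul z f1 _ h1 =>
      rcases hz z with rfl | rfl
      · rw [zero_smul, hX0 a b hab, zero_mul, hX0 a c hac, commutatorElement_one_left]
      · rwa [one_smul]
    | add f1 f2 _ _ h1 h2 =>
      rw [hXadd a b f1 f2 hab, commutator_bilin (h2 ▸ hcomm a b a c f1 _ hab hac hab.symm hac),
        h1, h2, ← hXadd a c _ _ hac, ← add_mul, add_comm f2]
    | mem f1 hf1 =>
      obtain ⟨m, rfl⟩ := hf1
      induction hspan g using Submodule.span_induction with
      | zero => rw [hX0 b c hbc, mul_zero, hX0 a c hac, commutatorElement_one_right]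
      | smul z g1 _ h1 =>
        rcases hz z with rfl | rfl
        · rw [zero_smul, hX0 b c hbc, mul_zero, hX0 a c hac, commutatorElement_one_right]
        · rwa [one_smul]
      | add g1 g2 _ _ h1 h2 =>
        rw [hXadd b c g1 g2 hbc,
          commutator_bilin' (h2 ▸ hcomm b c a c g1 _ hbc hac hac.symm hbc),
          h1, h2, ← hXadd a c _ _ hac, ← mul_add]
      | mem g1 hg1 =>
        obtain ⟨m', rfl⟩ := hg1
        rw [hXm a b hab, hXm b c hbc, ← map_mul, hXm a c hac, mono_append hx _ _ hab hbc hac,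
          FreeMonoid.toList_mul]
  · simpa [mono] using hXm a b h 1
  · have h1 := hXm a b h (FreeMonoid.of i)
    rw [FreeMonoid.lift_eval_of] at h1
    rw [h1]
    show ⁅x a (mid a b) i.succ, x (mid a b) b 0⁆ = x a b i.succ
    exact hx.one_right _ _ _ _ (mid_spec a b).1 (mid_spec a b).2 h

end Vale.Agent.P193.Bh.Linear
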