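import Vale.Agent.P193.Bh.Interface
import Vale.Agent.P193.Bh.Group.Linear.Basic
import Vale.Agent.P193.Bh.Group.Linear.Steinberg

/-!
# P193 M1: the linear group is finitely presented
-/

namespace Vale.Agent.P193.Bh.Linear

open scoped Classical commutatorElement

noncomputable section

variable {S : Type} [Infinite S] {n : ℕ}

lemma steinberg_ext {K : Type} [Group K] {X Y : S → S → FreeAlgebra (ZMod 2) (Fin n) → K}
    (hX : IsSteinberg X) (hY : IsSteinberg Y) (h1 : ∀ a b, a ≠ b → X a b 1 = Y a b 1)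
    (hι : ∀ a b i, a ≠ b → X a b (FreeAlgebra.ι (ZMod 2) i) = Y a b (FreeAlgebra.ι (ZMod 2) i)) :
    ∀ f a b, a ≠ b → X a b f = Y a b f := by
  intro f
  induction f using FreeAlgebra.induction (R := ZMod 2) (X := Fin n) with
  | grade0 z =>
    intro a b h
    rcases (show ∀ z : ZMod 2, z = 0 ∨ z = 1 by decide) z with rfl | rfl
    · rw [map_zero, hX.map_zero h, hY.map_zero h]
    · rw [map_one]; exact h1 a b h
  | grade1 i => exact fun a b h => hι a b i h
  | add f g hf hg => exact fun a b h => by rw [hX.add a b f g h, hY.add a b f g h, hf a b h, hg a b h]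
  | mul f g hf hg =>
    intro a c hac
    obtain ⟨b, hb⟩ := exists_avoid [a, c]
    simp only [List.mem_cons, List.not_mem_nil, or_false, not_or] at hb
    rw [← hX.chain a b c f g (Ne.symm hb.1) hb.2 hac, ← hY.chain a b c f g (Ne.symm hb.1) hb.2 hac,
      hf a b (Ne.symm hb.1), hg b c hb.2]

omit [Infinite S] in
lemma steinberg_map {K L R R' : Type} [Ring R] [Ring R'] [Group K] [Group L]
    {X : S → S → R → K} (hX : IsSteinberg X) (ψ : K →* L) (π : R' →+* R) :
    IsSteinberg fun a b r => ψ (X a b (π r)) where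
  add a b r s h := by simp only [map_add, hX.add a b _ _ h, map_mul]
  chain a b c r s hab hbc hac := by
    simp only [← map_mul, ← map_inv, hX.chain a b c _ _ hab hbc hac]
  comm a b c d r s hab hcd hbc had := (hX.comm a b c d _ _ hab hcd hbc had).map ψ

omit [Infinite S] in
lemma steinberg_conj {K R P : Type} [Ring R] [Group K] [Group P] [MulAction P S]
    {X : S → S → R → K} (hX : IsSteinberg X) (π : P →* K) (p : P) :
    IsSteinberg fun a b r => π p * X (p⁻¹ • a) (p⁻¹ • b) r * (π p)⁻¹ := by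
  have he : ∀ {a b : S}, a ≠ b → p⁻¹ • a ≠ p⁻¹ • b := fun h e => h (smul_left_cancel _ e)
  refine ⟨fun a b r s h => ?_, fun a b c r s hab hbc hac => ?_,
    fun a b c d r s hab hcd hbc had => ?_⟩
  · simp only [hX.add _ _ r s (he h)]; group
  · simp only [← hX.chain _ _ _ r s (he hab) (he hbc) (he hac)]; group
  · exact (hX.comm _ _ _ _ r s (he hab) (he hcd) (he hbc) (he had)).map (MulAut.conj (π p)).toMonoidHom

section
variable (D : PermData)

lemma exists_move (c : Fin 5 ↪ D.S) (F : Finset D.S) (hF : F.card ≤ 5) :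
    ∃ p : D.P, ∀ a ∈ F, ∃ i, p • a = c i := by
  let f : Fin F.card ↪ D.S := F.equivFin.symm.toEmbedding.trans (Function.Embedding.subtype _)
  obtain ⟨p, hp⟩ := D.transitive F.card f ((Fin.castLEEmb hF).trans c)
  refine ⟨p, fun a ha => ⟨Fin.castLE hF (F.equivFin ⟨a, ha⟩), ?_⟩⟩
  have := hp (F.equivFin ⟨a, ha⟩)
  simpa [f] using this

lemma exists_pair {a b a' b' : D.S} (h : a ≠ b) (h' : a' ≠ b') :
    ∃ p : D.P, p • a = a' ∧ p • b = b' := by
  obtain ⟨p, hp⟩ := D.transitive 2 ⟨![a, b], fun i j => by fin_cases i <;> fin_cases j <;> simp [h, Ne.symm h]⟩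
    ⟨![a', b'], fun i j => by fin_cases i <;> fin_cases j <;> simp [h', Ne.symm h']⟩
  exact ⟨p, hp 0, hp 1⟩

variable {A : Type} [Ring A] [Algebra (ZMod 2) A]

/-- Letters and permutations inside the linear group. -/
def XL (a b : D.S) (r : A) : lin D.S A D.P :=
  if h : a ≠ b then ⟨X a b r, X_mem_lin D.P h r⟩ else 1

lemma XL_coe {a b : D.S} (h : a ≠ b) (r : A) :
    (XL D a b r : Equiv.Perm (D.S →₀ A)) = X a b r := by simp [XL, h]

lemma isSteinberg_XL : IsSteinberg (XL D : D.S → D.S → A → _) where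
  add a b r s h := Subtype.ext (by simp [XL_coe D h, isSteinberg_X.add a b r s h])
  chain a b c r s hab hbc hac := Subtype.ext (by
    simpa [XL_coe D hab, XL_coe D hbc, XL_coe D hac] using isSteinberg_X.chain a b c r s hab hbc hac)
  comm a b c d r s hab hcd hbc had := Subtype.ext (by
    simpa [XL_coe D hab, XL_coe D hcd] using (isSteinberg_X.comm a b c d r s hab hcd hbc had).eq)

/-- The permutation part. -/
def permL : D.P →* lin D.S A D.P :=
  (perm A D.P (S := D.S)).codRestrict _ (perm_mem_lin D.P)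

lemma permL_conj (p : D.P) {a b : D.S} (h : a ≠ b) (r : A) :
    permL D p * XL D a b r * (permL D p)⁻¹ = XL D (p • a) (p • b) r := by
  refine Subtype.ext ?_
  simp only [Subgroup.coe_mul, Subgroup.coe_inv, XL_coe D h,
    XL_coe D (show p • a ≠ p • b from fun e => h (smul_left_cancel p e))]
  exact perm_conj D.P p h r

lemma XL_sq {a b : D.S} (h : a ≠ b) (r : A) : XL D a b r * XL D a b r = 1 :=
  Subtype.ext (by simp [XL_coe D h, X_self])

theorem isFinitelyPresented_lin [Nontrivial A] (hA : IsFPAlgebra A) (hsw : ∃ (sw : A →+* A)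
    (s₀ s₁ t₀ t₁ : A), t₀ * s₀ = 1 ∧ t₁ * s₁ = 1 ∧ t₀ * s₁ = 0 ∧ t₁ * s₀ = 0 ∧
      ∀ r, sw r = s₀ * r * t₀ + s₁ * sw r * t₁) :
    Group.IsFinitelyPresented (lin D.S A D.P) := by
  have := D.fp
  have := D.infinite
  obtain ⟨n, πA, hπA, RA, hRA, hker⟩ := hA
  let c : Fin 5 ↪ D.S := (Fin.valEmbedding).trans (Infinite.natEmbedding D.S)
  let gen : Fin (n + 1) → A := Fin.cons 1 fun i => πA (FreeAlgebra.ι (ZMod 2) i)
  let G₀ := Monoid.Coprod D.P (FreeGroup (Fin (n + 1)))
  let φ : G₀ →* lin D.S A D.P :=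
    Monoid.Coprod.lift (permL D) (FreeGroup.lift fun i => XL D (c 0) (c 1) (gen i))
  have h01 : c 0 ≠ c 1 := c.injective.ne (by decide)
  choose q hq0 hq1 using fun (p : {p : D.S × D.S // p.1 ≠ p.2}) =>
    exists_pair D h01 p.2
  let L : D.S → D.S → Fin (n + 1) → G₀ := fun a b i => if h : a ≠ b then
    Monoid.Coprod.inl (q ⟨(a, b), h⟩) * Monoid.Coprod.inr (FreeGroup.of i) *
      Monoid.Coprod.inl (q ⟨(a, b), h⟩)⁻¹ else 1
  have hφl : ∀ p, φ (Monoid.Coprod.inl p) = permL D p := fun p => Monoid.Coprod.lift_apply_inl _ _ p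
  have hφr : ∀ i, φ (Monoid.Coprod.inr (FreeGroup.of i)) = XL D (c 0) (c 1) (gen i) := fun i =>
    (Monoid.Coprod.lift_apply_inr _ _ _).trans (FreeGroup.lift_apply_of ..)
  have hφL : ∀ a b i, a ≠ b → φ (L a b i) = XL D a b (gen i) := by
    intro a b i h
    simp only [L, dif_pos h, map_mul, hφl, hφr, map_inv]
    rw [permL_conj D _ h01, hq0, hq1]
  -- stabiliser of the base pair
  obtain ⟨T, hT⟩ := D.stab_fg {c 0, c 1}
  let R1 : Set G₀ := (fun x : D.P × Fin (n + 1) =>
    ⁅(Monoid.Coprod.inl x.1 : G₀), Monoid.Coprod.inr (FreeGroup.of x.2)⁆) '' ((T : Set D.P) ×ˢ Set.univ)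
  let R2 : Set G₀ :=
    (Set.range fun x : Fin 5 × Fin 5 × Fin (n + 1) =>
      L (c x.1) (c x.2.1) x.2.2 * L (c x.1) (c x.2.1) x.2.2) ∪
    (Set.range fun x : (Fin 5 × Fin 5 × Fin (n + 1)) × (Fin 5 × Fin 5 × Fin (n + 1)) =>
      ⁅L (c x.1.1) (c x.1.2.1) x.1.2.2, L (c x.2.1) (c x.2.2.1) x.2.2.2⁆) ∪
    (Set.range fun x : (Fin 5 × Fin 5 × Fin 5 × Fin 5) × Fin (n + 1) × Fin (n + 1) =>
      ⁅L (c x.1.1) (c x.1.2.1) x.2.1, L (c x.1.2.1) (c x.1.2.2.1) x.2.2⁆ *
        ⁅L (c x.1.1) (c x.1.2.2.2) x.2.1, L (c x.1.2.2.2) (c x.1.2.2.1) x.2.2⁆⁻¹) ∪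
    (Set.range fun x : (Fin 5 × Fin 5 × Fin 5) × Fin (n + 1) × Fin (n + 1) × Fin (n + 1) =>
      ⁅L (c x.1.1) (c x.1.2.1) x.2.1, L (c x.1.2.1) (c x.1.2.2) x.2.2.1⁆ *
        (L (c x.1.1) (c x.1.2.2) x.2.2.2)⁻¹)
  let R := R1 ∪ (R2 ∩ (φ.ker : Set G₀))
  have hR : R.Finite :=
    ((T.finite_toSet.prod Set.finite_univ).image _).union <| Set.Finite.inter_of_left
      ((((Set.finite_range _).union (Set.finite_range _)).union (Set.finite_range _)).union
        (Set.finite_range _)) _
  have hRker : R ⊆ (φ.ker : Set G₀) := by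
    rintro g (⟨⟨s, i⟩, ⟨hs, -⟩, rfl⟩ | ⟨-, hg⟩)
    · have hs' : s ∈ fixingSubgroup D.P (({c 0, c 1} : Finset D.S) : Set D.S) :=
        hT ▸ Subgroup.subset_closure hs
      rw [mem_fixingSubgroup_iff] at hs'
      have h := permL_conj D (A := A) s h01 (gen i)
      rw [hs' (c 0) (by simp), hs' (c 1) (by simp)] at h
      simp only [SetLike.mem_coe, MonoidHom.mem_ker, map_commutatorElement, hφl, hφr]
      rw [commutatorElement_def, h, mul_inv_cancel]
    · exact hg
  let N := Subgroup.normalClosure R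
  let K1 := G₀ ⧸ N
  have hK1 : Group.IsFinitelyPresented K1 := Group.IsFinitelyPresented.quotient N ⟨R, hR, rfl⟩
  let m : G₀ →* K1 := QuotientGroup.mk' N
  let π1 : D.P →* K1 := m.comp Monoid.Coprod.inl
  let x0 : Fin (n + 1) → K1 := fun i => m (Monoid.Coprod.inr (FreeGroup.of i))
  have hm1 : ∀ g ∈ R, m g = 1 := fun g hg =>
    (QuotientGroup.eq_one_iff g).2 (Subgroup.subset_normalClosure hg)
  -- equivariance
  have hstab : ∀ s ∈ fixingSubgroup D.P (({c 0, c 1} : Finset D.S) : Set D.S), ∀ i,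
      Commute (π1 s) (x0 i) := by
    intro s hs i
    rw [← hT] at hs
    induction hs using Subgroup.closure_induction with
    | mem s hs =>
      refine commutatorElement_eq_one_iff_commute.1 ?_
      show ⁅m (Monoid.Coprod.inl s), m _⁆ = 1
      rw [← map_commutatorElement]
      exact hm1 _ (Or.inl ⟨(s, i), ⟨hs, trivial⟩, rfl⟩)
    | one => rw [map_one]; exact Commute.one_left _
    | mul s t _ _ hs ht => rw [map_mul]; exact hs.mul_left ht
    | inv s _ hs => rw [map_inv]; exact hs.inv_left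
  let x : D.S → D.S → Fin (n + 1) → K1 := fun a b i => m (L a b i)
  have hxq : ∀ (p : D.P) a b i, a ≠ b → p • c 0 = a → p • c 1 = b →
      x a b i = π1 p * x0 i * (π1 p)⁻¹ := by
    intro p a b i h h0 h1
    have hs : p⁻¹ * q ⟨(a, b), h⟩ ∈
        fixingSubgroup D.P (({c 0, c 1} : Finset D.S) : Set D.S) := by
      rw [mem_fixingSubgroup_iff]
      intro y hy
      simp only [Finset.coe_insert, Finset.coe_singleton, Set.mem_insert_iff,
        Set.mem_singleton_iff] at hy
      rw [mul_smul, inv_smul_eq_iff]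
      rcases hy with rfl | rfl
      · rw [hq0]; exact h0.symm
      · rw [hq1]; exact h1.symm
    have hc := (hstab _ hs i).eq
    simp only [x, L, dif_pos h, map_mul]
    show π1 (q ⟨(a, b), h⟩) * x0 i * π1 (q ⟨(a, b), h⟩)⁻¹ = _
    rw [map_inv]
    have hq : q ⟨(a, b), h⟩ = p * (p⁻¹ * q ⟨(a, b), h⟩) := (mul_inv_cancel_left _ _).symm
    rw [hq, map_mul, mul_assoc (π1 p), hc]
    group
  have hxe : ∀ (p : D.P) a b i, a ≠ b → π1 p * x a b i * (π1 p)⁻¹ = x (p • a) (p • b) i := by
    intro p a b i h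
    rw [hxq _ a b i h (hq0 ⟨(a, b), h⟩) (hq1 ⟨(a, b), h⟩),
      hxq (p * q ⟨(a, b), h⟩) (p • a) (p • b) i (fun e => h (smul_left_cancel p e))
        (by rw [mul_smul, hq0]) (by rw [mul_smul, hq1]), map_mul]
    group
  have hψL : ∀ g ∈ R2, φ g = 1 → m g = 1 := fun g hg h => hm1 g (Or.inr ⟨hg, h⟩)
  -- the relations among letters
  have hX := isSteinberg_XL D (A := A)
  have hrel : GenRel x := by
    have hne : ∀ (p : D.P) {a b : D.S} {i j : Fin 5}, a ≠ b → p • a = c i → p • b = c j →
        c i ≠ c j := fun p a b i j h hi hj e => h (smul_left_cancel p (hi.trans (e.trans hj.symm)))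
    constructor
    · intro a b i h
      obtain ⟨p, hp⟩ := exists_move D c {a, b} (Finset.card_le_two.trans (by norm_num))
      obtain ⟨u, hu⟩ := hp a (by simp)
      obtain ⟨v, hv⟩ := hp b (by simp)
      refine (MulAut.conj (π1 p)).injective ?_
      simp only [map_mul, map_one, MulAut.conj_apply, hxe p a b i h, hu, hv, x]
      rw [← map_mul]
      refine hψL _ (Or.inl (Or.inl (Or.inl ⟨(u, v, i), rfl⟩))) ?_
      rw [map_mul, hφL _ _ _ (hne p h hu hv), XL_sq D (hne p h hu hv)]
    · intro a b a' b' i j h h' hba' hab'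
      obtain ⟨p, hp⟩ := exists_move D c {a, b, a', b'} (Finset.card_le_four.trans (by norm_num))
      obtain ⟨u, hu⟩ := hp a (by simp)
      obtain ⟨v, hv⟩ := hp b (by simp)
      obtain ⟨u', hu'⟩ := hp a' (by simp)
      obtain ⟨v', hv'⟩ := hp b' (by simp)
      refine commutatorElement_eq_one_iff_commute.1 ((MulAut.conj (π1 p)).injective ?_)
      rw [map_commutatorElement, map_one]
      simp only [MulAut.conj_apply, hxe p a b i h, hxe p a' b' j h', hu, hv, hu', hv', x]
      rw [← map_commutatorElement]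
      refine hψL _ (Or.inl (Or.inl (Or.inr ⟨((u, v, i), (u', v', j)), rfl⟩))) ?_
      rw [map_commutatorElement, hφL _ _ _ (hne p h hu hv), hφL _ _ _ (hne p h' hu' hv'),
        commutatorElement_eq_one_iff_commute]
      exact hX.comm _ _ _ _ _ _ (hne p h hu hv) (hne p h' hu' hv') (hne p hba' hv hu')
        (hne p hab' hu hv')
    · intro a b b' d i j h1 h2 h3 h4 h5
      obtain ⟨p, hp⟩ := exists_move D c {a, b, b', d} (Finset.card_le_four.trans (by norm_num))
      obtain ⟨u, hu⟩ := hp a (by simp)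
      obtain ⟨v, hv⟩ := hp b (by simp)
      obtain ⟨v', hv'⟩ := hp b' (by simp)
      obtain ⟨w, hw⟩ := hp d (by simp)
      refine (MulAut.conj (π1 p)).injective ?_
      simp only [map_commutatorElement, MulAut.conj_apply, hxe p a b i h1, hxe p b d j h2,
        hxe p a b' i h4, hxe p b' d j h5, hu, hv, hv', hw, x]
      rw [← mul_inv_eq_one, ← map_commutatorElement, ← map_commutatorElement, ← map_inv, ← map_mul]
      refine hψL _ (Or.inl (Or.inr ⟨((u, v, w, v'), i, j), rfl⟩)) ?_
      have d1 := hne p h1 hu hv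
      have d2 := hne p h2 hv hw
      have d3 := hne p h3 hu hw
      have d4 := hne p h4 hu hv'
      have d5 := hne p h5 hv' hw
      simp only [map_mul, map_inv, map_commutatorElement, hφL _ _ _ d1, hφL _ _ _ d2,
        hφL _ _ _ d4, hφL _ _ _ d5]
      rw [mul_inv_eq_one, show ⁅XL D (c u) (c v) (gen i), XL D (c v) (c w) (gen j)⁆ = _ from
        hX.chain _ _ _ _ _ d1 d2 d3]
      exact (hX.chain _ _ _ _ _ d4 d5 d3).symm
    all_goals
      intro a b d i h1 h2 h3
      obtain ⟨p, hp⟩ := exists_move D c {a, b, d} (Finset.card_le_three.trans (by norm_num))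
      obtain ⟨u, hu⟩ := hp a (by simp)
      obtain ⟨v, hv⟩ := hp b (by simp)
      obtain ⟨w, hw⟩ := hp d (by simp)
      refine (MulAut.conj (π1 p)).injective ?_
      simp only [map_commutatorElement, MulAut.conj_apply, hxe p a b _ h1, hxe p b d _ h2,
        hxe p a d _ h3, hu, hv, hw, x]
      rw [← mul_inv_eq_one, ← map_commutatorElement, ← map_inv, ← map_mul]
      refine hψL _ (Or.inr ⟨((u, v, w), _, _, _), rfl⟩) ?_
      have d1 := hne p h1 hu hv
      have d2 := hne p h2 hv hw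
      have d3 := hne p h3 hu hw
      simp only [map_mul, map_inv, map_commutatorElement, hφL _ _ _ d1, hφL _ _ _ d2,
        hφL _ _ _ d3]
      rw [mul_inv_eq_one, show ⁅XL D (c u) (c v) _, XL D (c v) (c w) _⁆ = _ from
        hX.chain _ _ _ _ _ d1 d2 d3]
      simp [gen]
  obtain ⟨X1, hX1, hX1one, hX1ι⟩ := exists_steinberg hrel
  have hX1e : ∀ (p : D.P) a b f, a ≠ b → π1 p * X1 a b f * (π1 p)⁻¹ = X1 (p • a) (p • b) f := by
    intro p a b f h
    have hp : p • a ≠ p • b := fun e => h (smul_left_cancel p e)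
    have := steinberg_ext (steinberg_conj hX1 π1 p) hX1 (fun a b h => ?_) (fun a b i h => ?_) f
      (p • a) (p • b) hp
    · simpa using this
    all_goals
      have he : p⁻¹ • a ≠ p⁻¹ • b := fun e => h (smul_left_cancel _ e)
    · simp only [hX1one _ _ he, hX1one _ _ h, hxe p _ _ _ he, smul_inv_smul]
    · simp only [hX1ι _ _ i he, hX1ι _ _ i h, hxe p _ _ _ he, smul_inv_smul]
  -- the map to the linear group
  have hNle : N ≤ φ.ker := Subgroup.normalClosure_le_normal hRker
  let ψ1 : K1 →* lin D.S A D.P := QuotientGroup.lift N φ hNle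
  have hψx : ∀ a b i, a ≠ b → ψ1 (x a b i) = XL D a b (gen i) := fun a b i h => hφL a b i h
  have hψX : ∀ f a b, a ≠ b → ψ1 (X1 a b f) = XL D a b (πA f) := by
    refine steinberg_ext (steinberg_map hX1 ψ1 (RingHom.id _))
      (steinberg_map hX (MonoidHom.id _) πA.toRingHom) (fun a b h => ?_) (fun a b i h => ?_)
    · simp [hX1one a b h, hψx a b _ h, gen]
    · simp [hX1ι a b i h, hψx a b _ h, gen]
  let R' : Finset K1 := RA.image (X1 (c 0) (c 1))
  let M := Subgroup.normalClosure (R' : Set K1)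
  have hMle : M ≤ ψ1.ker := Subgroup.normalClosure_le_normal <| by
    intro g hg
    obtain ⟨r, hr, rfl⟩ := Finset.mem_image.1 hg
    show ψ1 _ = 1
    rw [hψX r _ _ h01, hRA r hr, hX.map_zero h01]
  let K2 := K1 ⧸ M
  have hK2 : Group.IsFinitelyPresented K2 :=
    Group.IsFinitelyPresented.quotient M ⟨(R' : Set K1), R'.finite_toSet, rfl⟩
  let m2 : K1 →* K2 := QuotientGroup.mk' M
  let ψ : K2 →* lin D.S A D.P := QuotientGroup.lift M ψ1 hMle
  let J : TwoSidedIdeal (FreeAlgebra (ZMod 2) (Fin n)) :=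
    TwoSidedIdeal.mk' {f | ∀ a b, a ≠ b → m2 (X1 a b f) = 1}
      (fun a b h => by rw [hX1.map_zero h, map_one])
      (fun hf hg a b h => by rw [hX1.add a b _ _ h, map_mul, hf a b h, hg a b h, one_mul])
      (fun hf a b h => by rw [neg_eq]; exact hf a b h)
      (fun {f g} hg a b h => by
        obtain ⟨d, hd⟩ := exists_avoid [a, b]
        simp only [List.mem_cons, List.not_mem_nil, or_false, not_or] at hd
        rw [← hX1.chain a d b f g (Ne.symm hd.1) hd.2 h]
        simp [hg d b hd.2])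
      (fun {f g} hf a b h => by
        obtain ⟨d, hd⟩ := exists_avoid [a, b]
        simp only [List.mem_cons, List.not_mem_nil, or_false, not_or] at hd
        rw [← hX1.chain a d b f g (Ne.symm hd.1) hd.2 h]
        simp [hf a d (Ne.symm hd.1)])
  have hJ : ∀ f, f ∈ J ↔ ∀ a b, a ≠ b → m2 (X1 a b f) = 1 := fun f => TwoSidedIdeal.mem_mk' ..
  have hkerJ : ∀ f, πA f = 0 → f ∈ J := by
    intro f hf
    refine TwoSidedIdeal.span_le.2 ?_ (hker f hf)
    intro r hr
    refine (hJ r).2 fun a b h => ?_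
    obtain ⟨p, hp0, hp1⟩ := exists_pair D h01 h
    rw [← hp0, ← hp1, ← hX1e p _ _ r h01, map_mul, map_mul]
    have h0 : m2 (X1 (c 0) (c 1) r) = 1 :=
      (QuotientGroup.eq_one_iff _).2 (Subgroup.subset_normalClosure
        (Finset.mem_coe.2 (Finset.mem_image_of_mem _ hr)))
    rw [h0, mul_one, ← map_mul, mul_inv_cancel, map_one]
  let σ : A → FreeAlgebra (ZMod 2) (Fin n) := Function.surjInv hπA
  have hσ : ∀ r, πA (σ r) = r := Function.surjInv_eq hπA
  have hcongr : ∀ f g a b, a ≠ b → πA f = πA g → m2 (X1 a b f) = m2 (X1 a b g) := by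
    intro f g a b h he
    have h0 := (hJ _).1 (hkerJ (f + g) (by rw [map_add, he, add_self_zero])) a b h
    rw [hX1.add a b f g h, map_mul, mul_eq_one_iff_eq_inv] at h0
    rw [h0]
    refine inv_eq_of_mul_eq_one_right ?_
    rw [← map_mul, ← hX1.add a b g g h, add_self_zero, hX1.map_zero h, map_one]
  let X2 : D.S → D.S → A → K2 := fun a b r => m2 (X1 a b (σ r))
  have hX2 : IsSteinberg X2 := by
    refine ⟨fun a b r s h => ?_, fun a b d r s hab hbd had => ?_,
      fun a b a' b' r s h h' h1 h2 => (hX1.comm a b a' b' _ _ h h' h1 h2).map m2⟩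
    · show _ = m2 _ * m2 _
      rw [← map_mul, ← hX1.add a b _ _ h]
      exact hcongr _ _ a b h (by simp [hσ])
    · show m2 _ * m2 _ * (m2 _)⁻¹ * (m2 _)⁻¹ = m2 _
      simp only [← map_inv, ← map_mul, hX1.chain a b d _ _ hab hbd had]
      exact hcongr _ _ a d had (by simp [hσ])
  let π2 : D.P →* K2 := m2.comp π1
  have hX2e : ∀ (p : D.P) a b r, a ≠ b → π2 p * X2 a b r * (π2 p)⁻¹ = X2 (p • a) (p • b) r := by
    intro p a b r h
    show m2 _ * m2 _ * (m2 _)⁻¹ = m2 _
    simp only [← map_inv, ← map_mul, hX1e p a b _ h]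
  have hψ2 : ∀ a b r, a ≠ b → ψ (X2 a b r) = XL D a b r := fun a b r h => by
    show ψ1 _ = _
    rw [hψX _ a b h, hσ]
  have hψπ : ∀ p, ψ (π2 p) = permL D p := fun p => by
    exact hφl p
  have hgen : ∀ g : K2, g ∈ Subgroup.closure
      ({g | ∃ a b r, a ≠ b ∧ g = X2 a b r} ∪ Set.range π2) := by
    intro g
    obtain ⟨g, rfl⟩ := QuotientGroup.mk'_surjective M g
    obtain ⟨g, rfl⟩ := QuotientGroup.mk'_surjective N g
    induction g using Monoid.Coprod.induction_on with
    | inl p => exact Subgroup.subset_closure (Or.inr ⟨p, rfl⟩)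
    | inr w =>
      induction w using FreeGroup.induction_on with
      | C1 => simp
      | of i =>
        refine Subgroup.subset_closure (Or.inl ⟨c 0, c 1, gen i, h01, ?_⟩)
        show m2 (x0 i) = m2 _
        have hx0 : x (c 0) (c 1) i = x0 i := by
          rw [hxq 1 _ _ i h01 (one_smul _ _) (one_smul _ _)]; simp
        rw [← hx0]
        refine Fin.cases ?_ (fun k => ?_) i
        · rw [← hX1one _ _ h01]; exact hcongr _ _ _ _ h01 (by simp [hσ, gen])
        · rw [← hX1ι _ _ k h01]; exact hcongr _ _ _ _ h01 (by simp [hσ, gen])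
      | inv_of i h => simpa using Subgroup.inv_mem _ h
      | mul u v hu hv => simpa using Subgroup.mul_mem _ hu hv
    | mul u v hu hv => simpa using Subgroup.mul_mem _ hu hv
  have hinj : Function.Injective ψ := by
    rw [injective_iff_map_eq_one]
    intro g hg
    obtain ⟨w, p, hw, rfl⟩ := exists_normal_form hX2e
      (fun a b r h => hX2.inv_eq two_eq_zero h r) (hgen g)
    have hw2 : ((ψ (wordX X2 w) : lin D.S A D.P) : Equiv.Perm (D.S →₀ A)) = wordX X w := by
      clear hg
      induction w with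
      | nil => simp [wordX]
      | cons l w ih =>
        have hl := hw l (List.mem_cons_self ..)
        rw [wordX_cons, wordX_cons, map_mul, Subgroup.coe_mul, hψ2 _ _ _ hl, XL_coe D hl,
          ih fun m hm => hw m (List.mem_cons_of_mem _ hm)]
    have hfix : ∀ v, wordVec w (perm A D.P p v) = v := fun v => by
      have h := congrArg (fun e : lin D.S A D.P => (e : Equiv.Perm (D.S →₀ A)) v) hg
      simp only [map_mul, Subgroup.coe_mul, Equiv.Perm.mul_apply, hw2, hψπ, Subgroup.coe_one,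
        Equiv.Perm.one_apply] at h
      rw [← wordX_apply w hw]
      exact h
    have hp : p = 1 := by
      refine D.no_finitary p ?_
      refine Set.Finite.subset ((w.map fun l => p⁻¹ • l.2.1).toFinset.finite_toSet) fun a ha => ?_
      by_contra hna
      have hkeep : ∀ w' : List (D.S × D.S × A), (∀ l ∈ w', l.2.1 ≠ p • a) →
          wordVec w' (Finsupp.single (p • a) (1 : A)) = Finsupp.single (p • a) 1 := by
        intro w' hw'
        induction w' with
        | nil => rfl
        | cons l w' ih =>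
          show stepVec l.1 l.2.1 l.2.2 (wordVec w' _) = _
          rw [ih fun m hm => hw' m (List.mem_cons_of_mem _ hm)]
          simp [stepVec, Ne.symm (hw' l (List.mem_cons_self ..))]
      have h := hfix (Finsupp.single a 1)
      have hperm : perm A D.P p (Finsupp.single a (1 : A)) = Finsupp.single (p • a) 1 := by
        ext i
        simp [perm_apply, Finsupp.single_apply, eq_inv_smul_iff]
      rw [hperm, hkeep w fun l hl e => hna (by
        simp only [List.coe_toFinset, List.mem_map, Set.mem_ofPred_eq]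
        exact ⟨l, hl, by rw [e, inv_smul_smul]⟩)] at h
      exact ha (Finsupp.single_left_injective one_ne_zero h)
    subst hp
    rw [map_one, mul_one]
    obtain ⟨sw, s₀, s₁, t₀, t₁, h1, h2, h3, h4, h5⟩ := hsw
    exact swindleGoal X2 two_eq_zero hX2 sw s₀ s₁ t₀ t₁ h1 h2 h3 h4 h5 w hw
      fun v => by simpa [perm_apply] using hfix v
  have hsurj : Function.Surjective ψ := by
    intro g
    have hle : lin D.S A D.P ≤ MonoidHom.range ((lin D.S A D.P).subtype.comp ψ) := by
      refine (Subgroup.closure_le _).2 ?_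
      rintro g (⟨a, b, r, hab, rfl⟩ | ⟨p, rfl⟩)
      · exact ⟨X2 a b r, by simp [hψ2 a b r hab, XL_coe D hab]⟩
      · exact ⟨π2 p, by simp [hψπ, permL]⟩
    obtain ⟨k, hk⟩ := hle g.2
    exact ⟨k, Subtype.ext hk⟩
  exact Group.IsFinitelyPresented.equiv (MulEquiv.ofBijective ψ ⟨hinj, hsurj⟩) (h := hK2)

end

end

end Vale.Agent.P193.Bh.Linear
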