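import Vale.Agent.P193.Bh.Group.Linear.Trans

/-!
# P193 M1: the stabiliser of a coordinate vector is finitely generated
-/

namespace Vale.Agent.P193.Bh.Linear

open scoped Classical commutatorElement

noncomputable section

variable {S A : Type} [Ring A] [Algebra (ZMod 2) A]

lemma wordX_swap {a c : S} (h : a ≠ c) :
    wordX X [(a, c, (1 : A)), (c, a, 1), (a, c, 1)] = permV (Equiv.swap a c) := by
  refine Equiv.ext fun v => Finsupp.ext fun j => ?_
  simp only [wordX, List.map_cons, List.map_nil, List.prod_cons, List.prod_nil,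
    Equiv.Perm.mul_apply, Equiv.Perm.one_apply, X_apply_coord h, X_apply_coord h.symm,
    if_neg h.symm, if_true, one_mul, permV_apply, Equiv.symm_swap]
  by_cases hja : j = a
  · subst hja
    simp only [if_true, if_neg h, Equiv.swap_apply_left]
    calc v j + v c + (v c + (v j + v c)) = (v j + v j) + (v c + v c) + v c := by abel
      _ = v c := by simp [add_self_zero]
  · by_cases hjc : j = c
    · subst hjc
      simp only [if_true, if_neg hja, Equiv.swap_apply_right]
      rw [add_left_comm, add_self_zero, add_zero]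
    · simp [hja, hjc, Equiv.swap_apply_of_ne_of_ne hja hjc]

lemma mem_of_letters {H : Subgroup (Equiv.Perm (S →₀ A))} (w : List (S × S × A))
    (h : ∀ l ∈ w, X l.1 l.2.1 l.2.2 ∈ H) : wordX X w ∈ H := by
  refine list_prod_mem ?_
  intro g hg
  obtain ⟨l, hl, rfl⟩ := List.mem_map.1 hg
  exact h l hl

lemma permV_wordX (p : Equiv.Perm S) (w : List (S × S × A)) (hw : ∀ l ∈ w, l.1 ≠ l.2.1) :
    wordX X (w.map fun l => (p l.1, p l.2.1, l.2.2)) = permV p * wordX X w * (permV p)⁻¹ := by
  induction w with
  | nil => simp [wordX]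
  | cons l w ih =>
    rw [List.map_cons, wordX_cons, wordX_cons, ih fun m hm => hw m (List.mem_cons_of_mem _ hm),
      ← permV_conj p (hw l (List.mem_cons_self ..))]
    group

omit [Ring A] [Algebra (ZMod 2) A] in
lemma exists_indices (w : List (S × S × A)) :
    ∃ F : Finset S, ∀ l ∈ w, l.1 ∈ F ∧ l.2.1 ∈ F := by
  refine ⟨(w.map fun l => l.1).toFinset ∪ (w.map fun l => l.2.1).toFinset, fun l hl => ?_⟩
  simp only [Finset.mem_union, List.mem_toFinset, List.mem_map]
  exact ⟨Or.inl ⟨l, hl, rfl⟩, Or.inr ⟨l, hl, rfl⟩⟩

/-- A word fixing `e` at `a` is a product of the given letters. -/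
theorem wordX_mem_of_fix [Infinite S] (H : Subgroup (Equiv.Perm (S →₀ A))) (a : S) {e : A}
    (he : e * e = e) (hoff : ∀ b c r, b ≠ c → b ≠ a → c ≠ a → X b c r ∈ H)
    (hrow : ∀ b r, b ≠ a → X a b r ∈ H) (hcol : ∀ b r, b ≠ a → X b a (r * (1 - e)) ∈ H)
    (w : List (S × S × A)) (hw : ∀ l ∈ w, l.1 ≠ l.2.1)
    (hfix : wordX X w (Finsupp.single a e) = Finsupp.single a e) : wordX X w ∈ H := by
  have h1e : (1 - e) * e = 0 := by rw [sub_mul, one_mul, he, sub_self]
  have h1e' : (1 - e) * (1 - e) = 1 - e := by rw [mul_sub, mul_one, h1e, sub_zero]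
  obtain ⟨F, hF⟩ := exists_indices w
  obtain ⟨b, hb⟩ := Infinite.exists_notMem_finset (insert a F)
  simp only [Finset.mem_insert, not_or] at hb
  obtain ⟨hba, hbF⟩ := hb
  let G := insert a F
  have hbG : b ∉ G := by simp [G, hba, hbF]
  set col := wordX X w (Finsupp.single a 1) with hcoldef
  have hcole : rmul col e = Finsupp.single a e := by
    rw [hcoldef, ← (wordX_mem_rightLinear w).2, rmul_single, one_mul, hfix]
  have hca : col a * e = e := by simpa using DFunLike.congr_fun hcole a
  have hcne : ∀ c, c ≠ a → col c * e = 0 := fun c hc => by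
    simpa [hc] using DFunLike.congr_fun hcole c
  have hcout : ∀ c, c ∉ G → col c = 0 := fun c hc => by
    simp only [G, Finset.mem_insert, not_or] at hc
    rw [hcoldef, wordX_coord_of_notMem w hw c (fun l hl e => hc.2 (e ▸ (hF l hl).1)),
      Finsupp.single_eq_of_ne hc.1]
  let d : S → A := fun i => wordX X w.reverse (Finsupp.single i 1) a
  have hinv : ∀ v, wordX X w.reverse (wordX X w v) = v := fun v => by
    rw [← Equiv.Perm.mul_apply, wordX_reverse_mul, Equiv.Perm.one_apply]
  have hsum : ∑ i ∈ G, d i * col i = 1 := by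
    have h := DFunLike.congr_fun
      ((linear_apply_sum (wordX_mem_rightLinear w.reverse) col).symm.trans (hinv _)) a
    rw [Finsupp.sum_apply, Finsupp.single_eq_same, Finsupp.sum_of_support_subset col
      (s := G) (fun c hc => by
        by_contra hcG; exact Finsupp.mem_support_iff.1 hc (hcout c hcG)) _ (by simp)] at h
    simpa [d] using h
  have hda : d a * e = e := by
    have h := hinv (Finsupp.single a e)
    rw [hfix] at h
    have h2 := DFunLike.congr_fun
      ((wordX_mem_rightLinear w.reverse).2 (Finsupp.single a 1) e) a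
    rw [rmul_single, one_mul, h] at h2
    simpa [d] using h2.symm
  let ρ : S → A := fun i => if i = a then (1 - e) * d a * (1 - e) else (1 - e) * d i
  let w1 : List (S × S × A) := G.toList.map fun i => (b, i, ρ i)
  have hw1 : ∀ l ∈ w1, X l.1 l.2.1 l.2.2 ∈ H := by
    intro l hl
    obtain ⟨i, hi, rfl⟩ := List.mem_map.1 hl
    have hbi : b ≠ i := fun e => hbG (e ▸ Finset.mem_toList.1 hi)
    by_cases hia : i = a
    · subst hia
      simp only [ρ, if_true]
      exact hcol b _ hba
    · exact hoff b i _ hbi hba hia
  let L := (G.erase a).toList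
  let w2 : List (S × S × A) := L.map fun i => (i, b, col i)
  have hw2 : ∀ l ∈ w2, X l.1 l.2.1 l.2.2 ∈ H := by
    intro l hl
    obtain ⟨i, hi, rfl⟩ := List.mem_map.1 hl
    obtain ⟨hia, hiG⟩ := Finset.mem_erase.1 (Finset.mem_toList.1 hi)
    exact hoff i b _ (fun e => hbG (e ▸ hiG)) hia hba
  let w3 : List (S × S × A) := [(b, a, 1 - e), (a, b, 1 - e), (a, b, col a)]
  have hw3 : ∀ l ∈ w3, X l.1 l.2.1 l.2.2 ∈ H := by
    have := hcol b 1 hba
    rw [one_mul] at this
    simp [w3, this, hrow b _ hba]
  -- column of `a`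
  have hcolb : col b = 0 := hcout b hbG
  have hc1 : wordX X w1 col = col + Finsupp.single b (1 - e) := by
    rw [wordX_gather (fun h => hbG (Finset.mem_toList.1 h)) (Finset.nodup_toList _) ρ col]
    congr 2
    rw [Finset.sum_map_toList]
    have hρ : ∀ i, ρ i * col i =
        (1 - e) * (d i * col i) - if i = a then (1 - e) * (e * col a) else 0 := by
      intro i
      by_cases hia : i = a
      · subst hia
        simp only [ρ, if_true]
        rw [mul_assoc (1 - e) (d i) (1 - e), show d i * (1 - e) = d i - e by
          rw [mul_sub, mul_one, hda], mul_assoc, sub_mul (d i), mul_sub]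
      · simp [ρ, hia, mul_assoc]
    rw [Finset.sum_congr rfl fun i _ => hρ i, Finset.sum_sub_distrib, ← Finset.mul_sum, hsum,
      mul_one, Finset.sum_ite_eq', if_pos (Finset.mem_insert_self a F), ← mul_assoc, h1e,
      zero_mul, sub_zero]
  have hbL : b ∉ L := fun h => hbG (Finset.mem_of_mem_erase (Finset.mem_toList.1 h))
  have hc2 : wordX X (w2 ++ w1) col = Finsupp.single a (col a) + Finsupp.single b (1 - e) := by
    rw [wordX_append, Equiv.Perm.mul_apply, hc1]
    ext j
    rw [wordX_spread hbL (Finset.nodup_toList _)]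
    simp only [Finsupp.add_apply, hcolb, Finsupp.single_eq_same, zero_add]
    by_cases hja : j = a
    · subst hja
      have : j ∉ L := by simp [L]
      rw [if_neg this, Finsupp.single_eq_same, Finsupp.single_eq_of_ne (Ne.symm hba)]
    · by_cases hjb : j = b
      · subst hjb
        rw [if_neg hbL, hcolb, Finsupp.single_eq_same, Finsupp.single_eq_of_ne hja]
      · rw [Finsupp.single_eq_of_ne hjb, Finsupp.single_eq_of_ne hja, add_zero, add_zero]
        by_cases hjG : j ∈ G
        · rw [if_pos (by simp [L, hja, hjG]), mul_sub, mul_one, hcne j hja, sub_zero, add_self_zero]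
        · rw [if_neg (by simp [L, hjG]), hcout j hjG]
  have hc3 : wordX X (w3 ++ (w2 ++ w1)) col = Finsupp.single a 1 := by
    rw [wordX_append, Equiv.Perm.mul_apply, hc2]
    ext j
    simp only [w3, wordX, List.map_cons, List.map_nil, List.prod_cons, List.prod_nil,
      Equiv.Perm.mul_apply, Equiv.Perm.one_apply, X_apply_coord hba, X_apply_coord (Ne.symm hba),
      if_neg hba, if_true, Finsupp.add_apply, Finsupp.single_eq_same,
      Finsupp.single_eq_of_ne hba, Finsupp.single_eq_of_ne (Ne.symm hba), add_zero, zero_add, h1e']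
    have h2 : col a + col a * (1 - e) + (1 - e) = 1 := by
      rw [mul_sub, mul_one, hca]
      simp only [sub_eq_add_neg, neg_eq]
      rw [show col a + (col a + e) + (1 + e) = (col a + col a) + (e + e) + 1 by abel,
        add_self_zero, add_self_zero, zero_add, zero_add]
    by_cases hja : j = a
    · subst hja
      simp [(Ne.symm hba), h2]
    · by_cases hjb : j = b
      · subst hjb
        simp [hba, h2, add_self_zero]
      · simp [hja, hjb]
  let W := w3 ++ (w2 ++ w1)
  have hWH : wordX X W ∈ H := by
    refine mem_of_letters W fun l hl => ?_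
    rcases List.mem_append.1 hl with h | h
    · exact hw3 l h
    · rcases List.mem_append.1 h with h | h
      · exact hw2 l h
      · exact hw1 l h
  suffices hU : wordX X (W ++ w) ∈ H by
    rw [wordX_append] at hU
    exact (Subgroup.mul_mem_cancel_left H hWH).1 hU
  have hWd : ∀ l ∈ W ++ w, l.1 ≠ l.2.1 := by
    intro l hl
    rcases List.mem_append.1 hl with hl | hl
    · rcases List.mem_append.1 hl with h | h
      · simp only [w3, List.mem_cons, List.not_mem_nil, or_false] at h
        rcases h with rfl | rfl | rfl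
        · exact hba
        all_goals exact (Ne.symm hba)
      · rcases List.mem_append.1 h with h | h
        · obtain ⟨i, hi, rfl⟩ := List.mem_map.1 h
          exact fun e => hbL ((show i = b from e) ▸ hi)
        · obtain ⟨i, hi, rfl⟩ := List.mem_map.1 h
          exact fun e => hbG ((show i = b from e.symm) ▸ Finset.mem_toList.1 hi)
    · exact hw l hl
  have hUa : wordX X (W ++ w) (Finsupp.single a 1) = Finsupp.single a 1 := by
    rw [wordX_append, Equiv.Perm.mul_apply]; exact hc3
  -- clear the row of `a`
  revert hWd hUa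
  generalize W ++ w = u
  intro hu hUa
  obtain ⟨F2, hF2⟩ := exists_indices u
  let L2 := (F2.erase a).toList
  have haL : a ∉ L2 := by simp [L2]
  let w4 : List (S × S × A) := L2.map fun i => (a, i, wordX X u (Finsupp.single i 1) a)
  have hw4d : ∀ l ∈ w4, l.1 ≠ l.2.1 := by
    intro l hl
    obtain ⟨i, hi, rfl⟩ := List.mem_map.1 hl
    exact fun e => haL ((show i = a from e.symm) ▸ hi)
  have hw4 : wordX X w4 ∈ H := by
    refine mem_of_letters w4 fun l hl => ?_
    obtain ⟨i, hi, rfl⟩ := List.mem_map.1 hl
    exact hrow i _ fun e => haL (e ▸ hi)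
  suffices hU : wordX X (u ++ w4) ∈ H by
    rw [wordX_append] at hU
    exact (Subgroup.mul_mem_cancel_right H hw4).1 hU
  have hlin := wordX_mem_rightLinear (A := A) u
  have hsingle : ∀ r, wordX X u (Finsupp.single a r) = Finsupp.single a r := fun r => by
    have h := hlin.2 (Finsupp.single a 1) r
    rwa [rmul_single, one_mul, hUa, rmul_single, one_mul] at h
  have hrow' : ∀ v : S →₀ A, wordX X u v a =
      v a + (L2.map fun i => wordX X u (Finsupp.single i 1) a * v i).sum := by
    intro v
    rw [Finset.sum_map_toList]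
    induction v using Finsupp.induction_linear with
    | zero => simp [map_zero' hlin]
    | add v v' h h' =>
      simp only [Finsupp.add_apply, hlin.1, h, h', mul_add, Finset.sum_add_distrib]
      abel
    | single i r =>
      by_cases hia : i = a
      · subst hia
        rw [hsingle r, Finsupp.single_eq_same, Finset.sum_eq_zero, add_zero]
        intro c hc
        rw [Finsupp.single_eq_of_ne (Finset.ne_of_mem_erase hc), mul_zero]
      · have hr : wordX X u (Finsupp.single i r) a = wordX X u (Finsupp.single i 1) a * r := by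
          have h := DFunLike.congr_fun (hlin.2 (Finsupp.single i 1) r) a
          rwa [rmul_single, one_mul, rmul_apply] at h
        rw [hr, Finsupp.single_eq_of_ne (Ne.symm hia), zero_add]
        by_cases hiF : i ∈ F2
        · rw [Finset.sum_eq_single i (fun c _ hc => by rw [Finsupp.single_eq_of_ne hc, mul_zero])
            (fun h => absurd (Finset.mem_erase.2 ⟨hia, hiF⟩) h), Finsupp.single_eq_same]
        · rw [wordX_single_of_notMem u hu i fun l hl e => hiF (e ▸ (hF2 l hl).2),
            Finsupp.single_eq_of_ne (Ne.symm hia), zero_mul, Finset.sum_eq_zero]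
          intro c hc
          have hne : c ≠ i := fun e => hiF (e ▸ Finset.mem_of_mem_erase hc)
          rw [Finsupp.single_eq_of_ne hne, mul_zero]
  have hg : ∀ v : S →₀ A, wordX X (u ++ w4) v a = v a := by
    intro v
    rw [wordX_append, Equiv.Perm.mul_apply, wordX_gather haL (Finset.nodup_toList _) _ v,
      hlin.1, hsingle, Finsupp.add_apply, hrow' v, Finsupp.single_eq_same, add_assoc, add_self_zero,
      add_zero]
  have hga : ∀ r, wordX X (u ++ w4) (Finsupp.single a r) = Finsupp.single a r := by
    intro r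
    rw [wordX_append, Equiv.Perm.mul_apply, wordX_gather haL (Finset.nodup_toList _) _ _,
      List.sum_eq_zero, Finsupp.single_zero, add_zero, hsingle]
    intro x hx
    obtain ⟨i, hi, rfl⟩ := List.mem_map.1 hx
    have hia : i ≠ a := fun e => haL (e ▸ hi)
    rw [Finsupp.single_eq_of_ne hia, mul_zero]
  have hd : ∀ l ∈ u ++ w4, l.1 ≠ l.2.1 := fun l hl =>
    (List.mem_append.1 hl).elim (hu l) (hw4d l)
  revert hd hg hga
  generalize u ++ w4 = t
  intro hg hga hd
  obtain ⟨F3, hF3⟩ := exists_indices t
  obtain ⟨b1, hb1⟩ := Infinite.exists_notMem_finset (insert a F3)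
  simp only [Finset.mem_insert, not_or] at hb1
  let σ := Equiv.swap a b1
  have hb1t : ∀ l ∈ t, l.1 ≠ b1 ∧ l.2.1 ≠ b1 := fun l hl =>
    ⟨fun e => hb1.2 (e ▸ (hF3 l hl).1), fun e => hb1.2 (e ▸ (hF3 l hl).2)⟩
  have hcommσ : permV σ * wordX X t = wordX X t * permV σ := by
    refine Equiv.ext fun v => ?_
    have hlin := wordX_mem_rightLinear (A := A) t
    have hswap : ∀ z : S →₀ A, permV σ z =
        z + Finsupp.single a (z b1 + z a) + Finsupp.single b1 (z a + z b1) := by
      intro z
      ext j
      rw [permV_apply, Finsupp.add_apply, Finsupp.add_apply]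
      by_cases hja : j = a
      · subst hja
        rw [Finsupp.single_eq_same, Finsupp.single_eq_of_ne (fun e => hb1.1 e.symm), add_zero]
        simp only [σ, Equiv.symm_swap, Equiv.swap_apply_left]
        rw [add_left_comm, add_self_zero, add_zero]
      · by_cases hjb : j = b1
        · subst hjb
          rw [Finsupp.single_eq_same, Finsupp.single_eq_of_ne hja, add_zero]
          simp only [σ, Equiv.symm_swap, Equiv.swap_apply_right]
          rw [add_left_comm, add_self_zero, add_zero]
        · rw [Finsupp.single_eq_of_ne hja, Finsupp.single_eq_of_ne hjb, add_zero, add_zero]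
          simp [σ, Equiv.swap_apply_of_ne_of_ne hja hjb]
    rw [Equiv.Perm.mul_apply, Equiv.Perm.mul_apply, hswap, hswap v, hlin.1, hlin.1, hga,
      wordX_single_of_notMem t hd b1 (fun l hl => (hb1t l hl).2), hg,
      wordX_coord_of_notMem t hd b1 (fun l hl => (hb1t l hl).1)]
  have hrel : wordX X t = wordX X (t.map fun l => (σ l.1, σ l.2.1, l.2.2)) := by
    rw [permV_wordX σ t hd, hcommσ, mul_inv_cancel_right]
  rw [hrel]
  refine mem_of_letters _ fun l hl => ?_
  obtain ⟨m, hm, rfl⟩ := List.mem_map.1 hl
  have hσne : ∀ j, j ≠ b1 → σ j ≠ a := fun j hj e => hj (by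
    have : σ (σ j) = σ a := by rw [e]
    simpa [σ] using this)
  exact hoff _ _ _ (σ.injective.ne (hd m hm)) (hσne _ (hb1t m hm).1) (hσne _ (hb1t m hm).2)

end

end Vale.Agent.P193.Bh.Linear
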