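import Vale.Agent.P193.Bh.Group.Linear.Basic

/-!
# P193 M1: units of the algebra inside the linear group (by the swindle)
-/

namespace Vale.Agent.P193.Bh.Linear

open scoped Classical

noncomputable section

variable {S A : Type} [Ring A] [Algebra (ZMod 2) A]

/-- A unit at one coordinate. -/
def diag (i : S) : Aˣ →* Equiv.Perm (S →₀ A) where
  toFun u :=
    { toFun := fun v => v.update i ((u : A) * v i)
      invFun := fun v => v.update i ((↑u⁻¹ : A) * v i)
      left_inv := fun v => by
        ext j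
        by_cases h : j = i <;> simp [h]
      right_inv := fun v => by
        ext j
        by_cases h : j = i <;> simp [h] }
  map_one' := by ext v j; by_cases h : j = i <;> simp [h]
  map_mul' u w := by ext v j; by_cases h : j = i <;> simp [h, mul_assoc]

omit [Algebra (ZMod 2) A] in
lemma diag_apply (i : S) (u : Aˣ) (v : S →₀ A) (j : S) :
    diag i u v j = if j = i then (u : A) * v i else v j := by
  by_cases h : j = i <;> simp [diag, h]

/-- The letters of the block `[[0, (s₀ s₁)], [(t₀; t₁), 0]]`. -/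
def blockWord (a b c : S) (s₀ s₁ t₀ t₁ : A) : List (S × S × A) :=
  [(a, b, s₀), (a, c, s₁), (b, a, t₀), (c, a, t₁), (a, b, s₀), (a, c, s₁)]

omit [Ring A] [Algebra (ZMod 2) A] in
lemma blockWord_distinct {a b c : S} (hab : a ≠ b) (hac : a ≠ c) (s₀ s₁ t₀ t₁ : A) :
    ∀ l ∈ blockWord a b c s₀ s₁ t₀ t₁, l.1 ≠ l.2.1 := by
  simp [blockWord, hab, hac, hab.symm, hac.symm]

variable {s₀ s₁ t₀ t₁ : A}

lemma wordX_block (h00 : t₀ * s₀ = 1) (h11 : t₁ * s₁ = 1) (h01 : t₀ * s₁ = 0)
    (h10 : t₁ * s₀ = 0) (hsum : s₀ * t₀ + s₁ * t₁ = 1) {a b c : S} (hab : a ≠ b) (hac : a ≠ c)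
    (hbc : b ≠ c) (v : S →₀ A) (j : S) :
    wordX X (blockWord a b c s₀ s₁ t₀ t₁) v j = if j = a then s₀ * v b + s₁ * v c
      else if j = b then t₀ * v a else if j = c then t₁ * v a else v j := by
  simp only [wordX, blockWord, List.map_cons, List.map_nil, List.prod_cons, List.prod_nil,
    Equiv.Perm.mul_apply, Equiv.Perm.one_apply, X_apply_coord hab, X_apply_coord hac,
    X_apply_coord hab.symm, X_apply_coord hac.symm, if_neg hab.symm, if_neg hac,
    if_neg hac.symm, if_neg hbc, if_neg hbc.symm, if_true]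
  have hb : t₀ * (v a + s₁ * v c + s₀ * v b) = t₀ * v a + v b := by
    rw [mul_add, mul_add, ← mul_assoc, ← mul_assoc, h01, h00, zero_mul, one_mul, add_zero]
  have hc : t₁ * (v a + s₁ * v c + s₀ * v b) = t₁ * v a + v c := by
    rw [mul_add, mul_add, ← mul_assoc, ← mul_assoc, h11, h10, zero_mul, one_mul, add_zero]
  have hb' : v b + (t₀ * v a + v b) = t₀ * v a := by
    rw [add_left_comm, add_self_zero, add_zero]
  have hc' : v c + (t₁ * v a + v c) = t₁ * v a := by
    rw [add_left_comm, add_self_zero, add_zero]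
  rw [hb, hc, hb', hc']
  by_cases hja : j = a
  · subst hja
    simp only [if_true, if_neg hab, if_neg hac]
    rw [← mul_assoc, ← mul_assoc]
    have : s₀ * t₀ * v j + s₁ * t₁ * v j = v j := by rw [← add_mul, hsum, one_mul]
    calc v j + s₁ * v c + s₀ * v b + s₁ * t₁ * v j + s₀ * t₀ * v j
        = v j + (s₀ * t₀ * v j + s₁ * t₁ * v j) + (s₀ * v b + s₁ * v c) := by abel
      _ = s₀ * v b + s₁ * v c := by rw [this, add_self_zero, zero_add]
  · by_cases hjb : j = b
    · subst hjb; simp [hja, hbc, hb']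
    · by_cases hjc : j = c
      · subst hjc; simp [hja, hjb, hc']
      · simp [hja, hjb, hjc]

lemma diag_conj_left (a b : S) (hab : a ≠ b) (u : Aˣ) (r : A) :
    diag a u * X a b r * (diag a u)⁻¹ = X a b ((u : A) * r) := by
  rw [mul_inv_eq_iff_eq_mul]
  refine Equiv.ext fun v => Finsupp.ext fun j => ?_
  simp only [Equiv.Perm.mul_apply, diag_apply, X_apply_coord hab, if_neg hab.symm, if_true]
  by_cases hj : j = a <;> simp [hj, mul_add, mul_assoc]

lemma diag_conj_right (a b : S) (hab : a ≠ b) (u : Aˣ) (r : A) :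
    diag a u * X b a r * (diag a u)⁻¹ = X b a (r * ↑u⁻¹) := by
  rw [mul_inv_eq_iff_eq_mul]
  refine Equiv.ext fun v => Finsupp.ext fun j => ?_
  simp only [Equiv.Perm.mul_apply, diag_apply, X_apply_coord hab.symm, if_neg hab, if_true]
  by_cases hj : j = a
  · subst hj; simp [hab]
  · simp [hj, mul_assoc]

variable (P : Type) [Group P] [MulAction P S]

lemma diag_mul_diag_inv_mem {a c : S} (hac : a ≠ c) (x : Aˣ) :
    diag a x * diag c x⁻¹ ∈ lin S A P := by
  let W : Aˣ → Equiv.Perm (S →₀ A) := fun u =>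
    X a c (u : A) * X c a (↑u⁻¹ : A) * X a c (u : A)
  have hW : ∀ (u : Aˣ) (v : S →₀ A) (j : S), W u v j =
      if j = a then (u : A) * v c else if j = c then (↑u⁻¹ : A) * v a else v j := by
    intro u v j
    simp only [W, Equiv.Perm.mul_apply, X_apply_coord hac, X_apply_coord hac.symm, 
      if_neg hac.symm, if_true]
    have h1 : v c + (↑u⁻¹ : A) * (v a + ↑u * v c) = ↑u⁻¹ * v a := by
      rw [mul_add, ← mul_assoc, Units.inv_mul, one_mul, add_left_comm, add_self_zero, add_zero]
    rw [h1]
    by_cases hja : j = a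
    · subst hja
      simp only [if_true, if_neg hac]
      rw [← mul_assoc, Units.mul_inv, one_mul, add_assoc, add_comm ((u : A) * v c),
        ← add_assoc, add_self_zero, zero_add]
    · by_cases hjc : j = c
      · subst hjc; simp [hja, h1]
      · simp [hja, hjc]
  have he : diag a x * diag c x⁻¹ = W x * W 1 := by
    refine Equiv.ext fun v => Finsupp.ext fun j => ?_
    simp only [Equiv.Perm.mul_apply, hW, diag_apply, if_neg hac, if_neg hac.symm, if_true,
      Units.val_one, inv_one, one_mul]
    by_cases hja : j = a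
    · subst hja; simp
    · by_cases hjc : j = c <;> simp [hja, hjc]
  rw [he]
  have hmem : ∀ u, W u ∈ lin S A P := fun u =>
    mul_mem (mul_mem (X_mem_lin P hac _) (X_mem_lin P hac.symm _)) (X_mem_lin P hac _)
  exact mul_mem (hmem x) (hmem 1)

/-- A unit at one coordinate lies in the linear group. -/
theorem diag_mem_lin [Infinite S] (sw : A →+* A) (h00 : t₀ * s₀ = 1) (h11 : t₁ * s₁ = 1)
    (h01 : t₀ * s₁ = 0) (h10 : t₁ * s₀ = 0) (hsum : s₀ * t₀ + s₁ * t₁ = 1)
    (hsw : ∀ r, sw r = s₀ * r * t₀ + s₁ * sw r * t₁) (b : S) (g : Aˣ) :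
    diag b g ∈ lin S A P := by
  obtain ⟨a, ha⟩ := Infinite.exists_notMem_finset ({b} : Finset S)
  obtain ⟨c, hc⟩ := Infinite.exists_notMem_finset ({a, b} : Finset S)
  simp only [Finset.mem_insert, Finset.mem_singleton, not_or] at ha hc
  have hab : a ≠ b := ha
  have hac : a ≠ c := fun e => hc.1 e.symm
  have hbc : b ≠ c := fun e => hc.2 e.symm
  let x : Aˣ := Units.map sw.toMonoidHom g
  let w := blockWord a b c s₀ s₁ t₀ t₁
  have hxs : (x : A) = s₀ * g * t₀ + s₁ * x * t₁ := hsw g
  have e00 : t₀ * ((x : A) * s₀) = g := by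
    rw [hxs]
    simp only [add_mul, mul_assoc, h00, h10, mul_zero, add_zero, mul_one]
    rw [← mul_assoc, h00, one_mul]
  have e01 : t₀ * ((x : A) * s₁) = 0 := by
    rw [hxs]
    simp only [add_mul, mul_assoc, h01, h11, mul_zero, zero_add, mul_one]
    rw [← mul_assoc, h01, zero_mul]
  have e10 : t₁ * ((x : A) * s₀) = 0 := by
    rw [hxs]
    simp only [add_mul, mul_assoc, h00, h10, mul_zero, add_zero, mul_one]
    rw [← mul_assoc, h10, zero_mul]
  have e11 : t₁ * ((x : A) * s₁) = x := by
    conv_lhs => rw [hxs]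
    simp only [add_mul, mul_assoc, h01, h11, mul_zero, zero_add, mul_one]
    rw [← mul_assoc, h11, one_mul]
  have key : wordX X w * diag a x * wordX X w = diag b g * diag c x := by
    refine Equiv.ext fun v => Finsupp.ext fun j => ?_
    simp only [Equiv.Perm.mul_apply, w, wordX_block h00 h11 h01 h10 hsum hab hac hbc, diag_apply,
      if_neg hab, if_neg hab.symm, if_neg hac, if_neg hac.symm, if_neg hbc, if_neg hbc.symm,
      if_true]
    by_cases hja : j = a
    · subst hja
      simp only [if_true, if_neg hab, if_neg hac]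
      rw [← mul_assoc, ← mul_assoc, ← add_mul, hsum, one_mul]
    · by_cases hjb : j = b
      · subst hjb
        simp only [if_true, if_neg hja]
        simp only [mul_add, ← mul_assoc]
        rw [show t₀ * (x : A) * s₀ = g by rw [mul_assoc, e00],
          show t₀ * (x : A) * s₁ = 0 by rw [mul_assoc, e01], zero_mul, add_zero]
      · by_cases hjc : j = c
        · subst hjc
          simp only [if_true, if_neg hja, if_neg hjb]
          simp only [mul_add, ← mul_assoc]
          rw [show t₁ * (x : A) * s₀ = 0 by rw [mul_assoc, e10],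
            show t₁ * (x : A) * s₁ = x by rw [mul_assoc, e11], zero_mul, zero_add]
        · simp [hja, hjb, hjc]
  have hg : diag b g = wordX X w * (diag a x * wordX X w * (diag a x)⁻¹) *
      (diag a x * diag c x⁻¹) := by
    rw [map_inv, eq_mul_inv_of_mul_eq key.symm]
    group
  rw [hg]
  refine mul_mem (mul_mem (wordX_mem_lin P w (blockWord_distinct hab hac _ _ _ _)) ?_)
    (diag_mul_diag_inv_mem P hac x)
  show MulAut.conj (diag a x) (wordX X w) ∈ lin S A P
  simp only [wordX, w, blockWord, List.map_cons, List.map_nil, List.prod_cons, List.prod_nil,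
    map_mul, MulAut.conj_apply, diag_conj_left a b hab, diag_conj_left a c hac,
    diag_conj_right a b hab, diag_conj_right a c hac, mul_one]
  exact mul_mem (X_mem_lin P hab _) (mul_mem (X_mem_lin P hac _) (mul_mem (X_mem_lin P hab.symm _)
    (mul_mem (X_mem_lin P hac.symm _) (mul_mem (X_mem_lin P hab _) (X_mem_lin P hac _)))))

end

end Vale.Agent.P193.Bh.Linear
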