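import Vale.Agent.P193.Bh.Group.Interface2
import Vale.Agent.P193.Bh.Group.Linear.Pres
import Vale.Agent.P193.Bh.Group.Linear.Units
import Vale.Agent.P193.Bh.Group.Linear.Stab

/-!
# P193 M1: a seed and a permutation group give a group of type A containing the units
-/

namespace Vale.Agent.P193.Bh.Linear

open scoped Classical commutatorElement

noncomputable section

variable (D : PermData) (Sd : Seed)

/-- Nonzero vectors with entries in the left ideal of the idempotent. -/
def Vec : Type := {v : D.S →₀ Sd.A // v ≠ 0 ∧ rmul v Sd.e = v}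

instance : MulAction (lin (PermData.S D) (Seed.A Sd) (PermData.P D)) (Vec D Sd) where
  smul g v := ⟨(g : Equiv.Perm (D.S →₀ Sd.A)) v.1, fun h => v.2.1 (g.1.injective
    (h.trans (map_zero' (lin_le D.P g.2)).symm)), rmul_fixed Sd (lin_le D.P g.2) v.2.2⟩
  one_smul _ := rfl
  mul_smul _ _ _ := rfl

/-- The coordinate vector. -/
def basicVec (a : D.S) : Vec D Sd :=
  ⟨Finsupp.single a Sd.e, Finsupp.single_ne_zero.2 Sd.e_ne, by rw [rmul_single, Sd.idem]⟩

lemma smul_coe (g : (lin (PermData.S D) (Seed.A Sd) (PermData.P D))) (v : Vec D Sd) :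
    (g • v).1 = (g : Equiv.Perm (D.S →₀ Sd.A)) v.1 := rfl

lemma perm_single (p : D.P) (a : D.S) (r : Sd.A) :
    perm Sd.A D.P p (Finsupp.single a r) = Finsupp.single (p • a) r := by
  ext i
  simp [perm_apply, Finsupp.single_apply, eq_inv_smul_iff]

lemma infinite_vec : Infinite (Vec D Sd) := by
  have := D.infinite
  exact Infinite.of_injective (basicVec D Sd) fun a b h =>
    Finsupp.single_left_injective Sd.e_ne (congrArg Subtype.val h)

lemma trans2 (v w v' w' : Vec D Sd) (h : v ≠ w) (h' : v' ≠ w') :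
    ∃ g : (lin (PermData.S D) (Seed.A Sd) (PermData.P D)), g • v = v' ∧ g • w = w' := by
  have := D.infinite
  obtain ⟨g, hg, a, b, hab, h1, h2⟩ := exists_pair_normal Sd D.P v.1 w.1 v.2.1 w.2.1 v.2.2 w.2.2
    fun e => h (Subtype.ext e)
  obtain ⟨g', hg', a', b', hab', h1', h2'⟩ := exists_pair_normal Sd D.P v'.1 w'.1 v'.2.1 w'.2.1
    v'.2.2 w'.2.2 fun e => h' (Subtype.ext e)
  obtain ⟨p, hpa, hpb⟩ := exists_pair D hab hab'
  refine ⟨⟨g'⁻¹ * perm Sd.A D.P p * g, mul_mem (mul_mem (inv_mem hg') (perm_mem_lin D.P p)) hg⟩,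
    Subtype.ext ?_, Subtype.ext ?_⟩
  all_goals
    rw [smul_coe]
    simp only [Equiv.Perm.mul_apply, h1, h2, perm_single, hpa, hpb]
  · rw [← h1', Equiv.Perm.coe_inv, Equiv.symm_apply_apply]
  · rw [← h2', Equiv.Perm.coe_inv, Equiv.symm_apply_apply]

lemma stab_fg_basic (a : D.S) : (MulAction.stabilizer (lin (PermData.S D) (Seed.A Sd) (PermData.P D)) (basicVec D Sd a)).FG := by
  have := D.infinite
  obtain ⟨n, πA, hπA, -⟩ := Sd.fp
  obtain ⟨b0, hb0⟩ := Infinite.exists_notMem_finset ({a} : Finset D.S)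
  obtain ⟨c0, hc0⟩ := Infinite.exists_notMem_finset ({a, b0} : Finset D.S)
  simp only [Finset.mem_insert, Finset.mem_singleton, not_or] at hb0 hc0
  have hab : a ≠ b0 := fun e => hb0 e.symm
  have hac : a ≠ c0 := fun e => hc0.1 e.symm
  have hbc : b0 ≠ c0 := fun e => hc0.2 e.symm
  obtain ⟨p0, hp0⟩ := D.transitive 1 ⟨fun _ => a, fun _ _ _ => Subsingleton.elim _ _⟩
    ⟨fun _ => c0, fun _ _ _ => Subsingleton.elim _ _⟩
  replace hp0 : p0 • a = c0 := hp0 0
  obtain ⟨T, hT⟩ := D.stab_fg {a}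
  let gen : Fin (n + 1) → Sd.A := Fin.cons 1 fun i => πA (FreeAlgebra.ι (ZMod 2) i)
  let h0 : Equiv.Perm (D.S →₀ Sd.A) := permV (Equiv.swap a c0) * perm Sd.A D.P p0
  let Gs : Set (Equiv.Perm (D.S →₀ Sd.A)) := (perm Sd.A D.P) '' (T : Set D.P) ∪
    ({h0, X a b0 1, X b0 a (1 - Sd.e)} ∪ Set.range fun i => X b0 c0 (gen i))
  have hGfin : Gs.Finite := (T.finite_toSet.image _).union
    ((Set.toFinite _).union (Set.finite_range _))
  let H := Subgroup.closure Gs
  have hperm : ∀ s : D.P, s • a = a → perm Sd.A D.P s ∈ H := by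
    intro s hs
    have hs' : s ∈ fixingSubgroup D.P (({a} : Finset D.S) : Set D.S) := by
      rw [mem_fixingSubgroup_iff]; intro y hy; simp only [Finset.coe_singleton,
        Set.mem_singleton_iff] at hy; rw [hy, hs]
    rw [← hT] at hs'
    have hle : Subgroup.closure (T : Set D.P) ≤ H.comap (perm Sd.A D.P) :=
      (Subgroup.closure_le _).2 fun t ht => Subgroup.subset_closure (Or.inl ⟨t, ht, rfl⟩)
    exact hle hs'
  have htrip : ∀ b c, b ≠ a → c ≠ a → b ≠ c →
      ∃ s : D.P, s • a = a ∧ s • b0 = b ∧ s • c0 = c := by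
    intro b c hb hc hbc'
    obtain ⟨s, hs⟩ := D.transitive 3
      ⟨![a, b0, c0], fun i j => by
        fin_cases i <;> fin_cases j <;> simp [hab, hac, hbc, Ne.symm hab, Ne.symm hac, Ne.symm hbc]⟩
      ⟨![a, b, c], fun i j => by
        fin_cases i <;> fin_cases j <;> simp [hb, hc, hbc', Ne.symm hb, Ne.symm hc, Ne.symm hbc']⟩
    exact ⟨s, hs 0, hs 1, hs 2⟩
  have hconj : ∀ (s : D.P) x y r, s • a = a → x ≠ y → X x y r ∈ H → X (s • x) (s • y) r ∈ H := by
    intro s x y r hs hxy hX
    rw [← perm_conj D.P s hxy r]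
    exact mul_mem (mul_mem (hperm s hs) hX) (inv_mem (hperm s hs))
  have hchain : ∀ x y z r r', x ≠ y → y ≠ z → x ≠ z → X x y r ∈ H → X y z r' ∈ H →
      X x z (r * r') ∈ H := by
    intro x y z r r' h1 h2 h3 hr hr'
    rw [← isSteinberg_X.chain x y z r r' h1 h2 h3]
    exact mul_mem (mul_mem (mul_mem hr hr') (inv_mem hr)) (inv_mem hr')
  have hoff : ∀ r b c, b ≠ c → b ≠ a → c ≠ a → X b c r ∈ H := by
    intro r
    obtain ⟨f, rfl⟩ := hπA r
    have hgen : ∀ i b c, b ≠ c → b ≠ a → c ≠ a → X b c (gen i) ∈ H := by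
      intro i b c hbc' hb hc
      obtain ⟨s, hs1, hs2, hs3⟩ := htrip b c hb hc hbc'
      rw [← hs2, ← hs3]
      exact hconj s b0 c0 _ hs1 hbc (Subgroup.subset_closure (Or.inr (Or.inr ⟨i, rfl⟩)))
    induction f using FreeAlgebra.induction (R := ZMod 2) (X := Fin n) with
    | grade0 z =>
      intro b c hbc' hb hc
      rcases (show ∀ z : ZMod 2, z = 0 ∨ z = 1 by decide) z with rfl | rfl
      · rw [map_zero, map_zero, isSteinberg_X.map_zero hbc']; exact one_mem _
      · simpa [gen] using hgen 0 b c hbc' hb hc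
    | grade1 i => exact fun b c h1 h2 h3 => by simpa [gen] using hgen i.succ b c h1 h2 h3
    | add f g hf hg =>
      intro b c h1 h2 h3
      rw [map_add, isSteinberg_X.add b c _ _ h1]
      exact mul_mem (hf b c h1 h2 h3) (hg b c h1 h2 h3)
    | mul f g hf hg =>
      intro b c h1 h2 h3
      obtain ⟨d, hd⟩ := Infinite.exists_notMem_finset ({a, b, c} : Finset D.S)
      simp only [Finset.mem_insert, Finset.mem_singleton, not_or] at hd
      rw [map_mul]
      exact hchain b d c _ _ (Ne.symm hd.2.1) hd.2.2 h1 (hf b d (Ne.symm hd.2.1) h2 hd.1)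
        (hg d c hd.2.2 hd.1 h3)
  have hrow : ∀ b r, b ≠ a → X a b r ∈ H := by
    intro b r hb
    obtain ⟨d, hd⟩ := Infinite.exists_notMem_finset ({a, b} : Finset D.S)
    obtain ⟨d', hd'⟩ := Infinite.exists_notMem_finset ({a, d} : Finset D.S)
    simp only [Finset.mem_insert, Finset.mem_singleton, not_or] at hd hd'
    obtain ⟨s, hs1, hs2, -⟩ := htrip d d' hd.1 hd'.1 (Ne.symm hd'.2)
    have h1 : X a d (1 : Sd.A) ∈ H := by
      have := hconj s a b0 1 hs1 hab (Subgroup.subset_closure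
        (Or.inr (Or.inl (by simp))))
      rwa [hs1, hs2] at this
    simpa using hchain a d b 1 r (Ne.symm hd.1) hd.2 (Ne.symm hb) h1 (hoff r d b hd.2 hd.1 hb)
  have hcol : ∀ b r, b ≠ a → X b a (r * (1 - Sd.e)) ∈ H := by
    intro b r hb
    obtain ⟨d, hd⟩ := Infinite.exists_notMem_finset ({a, b} : Finset D.S)
    obtain ⟨d', hd'⟩ := Infinite.exists_notMem_finset ({a, d} : Finset D.S)
    simp only [Finset.mem_insert, Finset.mem_singleton, not_or] at hd hd'
    obtain ⟨s, hs1, hs2, -⟩ := htrip d d' hd.1 hd'.1 (Ne.symm hd'.2)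
    have h1 : X d a (1 - Sd.e) ∈ H := by
      have := hconj s b0 a (1 - Sd.e) hs1 (Ne.symm hab) (Subgroup.subset_closure
        (Or.inr (Or.inl (by simp))))
      rwa [hs1, hs2] at this
    exact hchain b d a r _ (Ne.symm hd.2) hd.1 hb (hoff r b d (Ne.symm hd.2) hb hd.1) h1
  have h0lin : h0 ∈ (lin (PermData.S D) (Seed.A Sd) (PermData.P D)) := by
    refine mul_mem ?_ (perm_mem_lin D.P p0)
    rw [← wordX_swap hac]
    exact wordX_mem_lin D.P _ (by simp [hac, Ne.symm hac])
  have hGs : ∀ g ∈ Gs, g ∈ (lin (PermData.S D) (Seed.A Sd) (PermData.P D)) ∧ g (Finsupp.single a Sd.e) = Finsupp.single a Sd.e := by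
    rintro g (⟨s, hs, rfl⟩ | hg | ⟨i, rfl⟩)
    · refine ⟨perm_mem_lin D.P s, ?_⟩
      have hs' : s ∈ fixingSubgroup D.P (({a} : Finset D.S) : Set D.S) :=
        hT ▸ Subgroup.subset_closure hs
      rw [mem_fixingSubgroup_iff] at hs'
      rw [perm_single, hs' a (by simp)]
    · simp only [Set.mem_insert_iff, Set.mem_singleton_iff] at hg
      rcases hg with rfl | rfl | rfl
      · refine ⟨h0lin, ?_⟩
        ext j
        rw [Equiv.Perm.mul_apply, perm_single, hp0, permV_apply, Equiv.symm_swap]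
        by_cases hj : j = a
        · subst hj; simp
        · rw [Finsupp.single_eq_of_ne hj, Finsupp.single_eq_of_ne]
          intro h
          exact hj ((Equiv.swap a c0).injective (h.trans (Equiv.swap_apply_left a c0).symm))
      · refine ⟨X_mem_lin D.P hab _, ?_⟩
        rw [X_apply hab, Finsupp.single_eq_of_ne (Ne.symm hab)]
        simp
      · refine ⟨X_mem_lin D.P (Ne.symm hab) _, ?_⟩
        rw [X_apply (Ne.symm hab), Finsupp.single_eq_same, sub_mul, one_mul, Sd.idem, sub_self]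
        simp
    · refine ⟨X_mem_lin D.P hbc _, ?_⟩
      rw [X_apply hbc, Finsupp.single_eq_of_ne (Ne.symm hac)]
      simp
  have hHle : ∀ g ∈ H, g ∈ (lin (PermData.S D) (Seed.A Sd) (PermData.P D)) ∧ g (Finsupp.single a Sd.e) = Finsupp.single a Sd.e := by
    intro g hg
    induction hg using Subgroup.closure_induction with
    | mem g h => exact hGs g h
    | one => exact ⟨one_mem _, rfl⟩
    | mul g h _ _ hg hh => exact ⟨mul_mem hg.1 hh.1, by rw [Equiv.Perm.mul_apply, hh.2, hg.2]⟩
    | inv g _ hg => exact ⟨inv_mem hg.1, by rw [Equiv.Perm.coe_inv, Equiv.symm_apply_eq, hg.2]⟩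
  have hstab : ∀ g ∈ (lin (PermData.S D) (Seed.A Sd) (PermData.P D)), g (Finsupp.single a Sd.e) = Finsupp.single a Sd.e → g ∈ H := by
    intro g hg hfix
    obtain ⟨w, p, hw, rfl⟩ := exists_normal_form (fun p b c r h => perm_conj D.P p h r)
      (fun b c r _ => X_inv b c r) hg
    by_cases hp : p • a = a
    · refine mul_mem (wordX_mem_of_fix H a Sd.idem (fun b c r => hoff r b c) hrow hcol w hw ?_)
        (hperm p hp)
      rwa [Equiv.Perm.mul_apply, perm_single, hp] at hfix
    obtain ⟨d, hd⟩ := Infinite.exists_notMem_finset ({a, p • a} : Finset D.S)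
    simp only [Finset.mem_insert, Finset.mem_singleton, not_or] at hd
    obtain ⟨s, hs⟩ := D.transitive 2
      ⟨![a, c0], fun i j => by fin_cases i <;> fin_cases j <;> simp [hac, Ne.symm hac]⟩
      ⟨![a, p • a], fun i j => by fin_cases i <;> fin_cases j <;> simp [hp, Ne.symm hp]⟩
    have hsa : s • a = a := hs 0
    have hsc : s • c0 = p • a := hs 1
    have hs2 : ((s * p0)⁻¹ * p) • a = a := by
      rw [mul_smul, inv_smul_eq_iff, mul_smul, hp0, hsc]
    have hkey : perm Sd.A D.P s * h0 * perm Sd.A D.P ((s * p0)⁻¹ * p) =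
        wordX X [(a, p • a, (1 : Sd.A)), (p • a, a, 1), (a, p • a, 1)] * perm Sd.A D.P p := by
      have hsw : perm Sd.A D.P s * permV (Equiv.swap a c0) =
          permV (Equiv.swap a (p • a)) * perm Sd.A D.P s := by
        show permV (MulAction.toPermHom D.P D.S s) * _ = _ * permV (MulAction.toPermHom D.P D.S s)
        rw [← map_mul, ← map_mul, Equiv.mul_swap_eq_swap_mul]
        congr 3
      rw [wordX_swap (Ne.symm hp), ← mul_assoc, hsw]
      simp only [mul_assoc, ← map_mul]
      congr 2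
      group
    have hmem : perm Sd.A D.P s * h0 * perm Sd.A D.P ((s * p0)⁻¹ * p) ∈ H :=
      mul_mem (mul_mem (hperm s hsa) (Subgroup.subset_closure (Or.inr (Or.inl (by simp)))))
        (hperm _ hs2)
    have heq : wordX X w * perm Sd.A D.P p =
        wordX X (w ++ [(a, p • a, (1 : Sd.A)), (p • a, a, 1), (a, p • a, 1)]) *
          (perm Sd.A D.P s * h0 * perm Sd.A D.P ((s * p0)⁻¹ * p)) := by
      rw [hkey, wordX_append, wordX_swap (Ne.symm hp), mul_assoc, ← mul_assoc (permV _),
        ← map_mul, Equiv.swap_mul_self, map_one, one_mul]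
    rw [heq]
    refine mul_mem (wordX_mem_of_fix H a Sd.idem (fun b c r => hoff r b c) hrow hcol _ ?_ ?_) hmem
    · intro l hl
      rcases List.mem_append.1 hl with hl | hl
      · exact hw l hl
      · simp only [List.mem_cons, List.not_mem_nil, or_false] at hl
        rcases hl with rfl | rfl | rfl
        · exact Ne.symm hp
        · exact hp
        · exact Ne.symm hp
    · rw [heq, Equiv.Perm.mul_apply, (hHle _ hmem).2] at hfix
      exact hfix
  -- transfer to the stabiliser
  let T' : Set (lin (PermData.S D) (Seed.A Sd) (PermData.P D)) := (fun g : (lin (PermData.S D) (Seed.A Sd) (PermData.P D)) => (g : Equiv.Perm (D.S →₀ Sd.A))) ⁻¹' Gs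
  have hT'fin : T'.Finite := hGfin.preimage Subtype.val_injective.injOn
  have himg : ((lin (PermData.S D) (Seed.A Sd) (PermData.P D))).subtype '' T' = Gs := by
    ext g
    constructor
    · rintro ⟨g', hg', rfl⟩; exact hg'
    · exact fun hg => ⟨⟨g, (hGs g hg).1⟩, hg, rfl⟩
  refine (Subgroup.fg_iff _).2 ⟨T', ?_, hT'fin⟩
  refine Subgroup.map_injective ((lin (PermData.S D) (Seed.A Sd) (PermData.P D))).subtype_injective ?_
  rw [MonoidHom.map_closure, himg]
  ext g
  constructor
  · intro hg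
    exact ⟨⟨g, (hHle g hg).1⟩, Subtype.ext (hHle g hg).2, rfl⟩
  · rintro ⟨g', hg', rfl⟩
    exact hstab _ g'.2 (congrArg Subtype.val (show g' • basicVec D Sd a = basicVec D Sd a from hg'))

lemma stab_fg (v : Vec D Sd) : (MulAction.stabilizer (lin (PermData.S D) (Seed.A Sd) (PermData.P D)) v).FG := by
  have := D.infinite
  obtain ⟨a⟩ := (inferInstance : Nonempty D.S)
  by_cases hv : v = basicVec D Sd a
  · rw [hv]; exact stab_fg_basic D Sd a
  obtain ⟨g, hg, -⟩ := trans2 D Sd (basicVec D Sd a) v v (basicVec D Sd a) (Ne.symm hv) hv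
  rw [← hg, MulAction.stabilizer_smul_eq_stabilizer_map_conj]
  obtain ⟨T, hT⟩ := stab_fg_basic D Sd a
  exact ⟨T.image (MulAut.conj g).toMonoidHom, by rw [Finset.coe_image, ← MonoidHom.map_closure, hT]⟩

lemma no_finitary (g : (lin (PermData.S D) (Seed.A Sd) (PermData.P D))) (hg : {v : Vec D Sd | g • v ≠ v}.Finite) : g = 1 := by
  have := D.infinite
  have hlin := lin_le D.P g.2
  have hall : ∀ v : Vec D Sd, g • v = v := by
    intro v
    by_contra hv
    have hne : ∀ b, b ∉ v.1.support → v.1 + Finsupp.single b Sd.e ≠ 0 := fun b hb h => Sd.e_ne (by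
      simpa [Finsupp.notMem_support_iff.1 hb] using DFunLike.congr_fun h b)
    let f : {b : D.S // b ∉ v.1.support} → Vec D Sd := fun b =>
      ⟨v.1 + Finsupp.single b.1 Sd.e, hne b.1 b.2, by
        ext i
        simp only [rmul_apply, Finsupp.add_apply, add_mul, entry_fixed Sd v.2.2 i]
        congr 1
        by_cases hi : i = b.1 <;> simp [hi, Sd.idem]⟩
    have hf : Function.Injective f := fun b b' h => Subtype.ext
      (Finsupp.single_left_injective Sd.e_ne (add_left_cancel (congrArg Subtype.val h)))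
    have hsplit : ∀ b, g • f b ≠ f b ∨ g • basicVec D Sd b.1 ≠ basicVec D Sd b.1 := by
      intro b
      by_contra h
      push Not at h
      refine hv (Subtype.ext ?_)
      have h1 : (g : Equiv.Perm (D.S →₀ Sd.A)) (v.1 + Finsupp.single b.1 Sd.e) =
          v.1 + Finsupp.single b.1 Sd.e := congrArg Subtype.val h.1
      have h2 : (g : Equiv.Perm (D.S →₀ Sd.A)) (Finsupp.single b.1 Sd.e) =
          Finsupp.single b.1 Sd.e := congrArg Subtype.val h.2
      rw [hlin.1, h2, add_left_inj] at h1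
      exact h1
    have : Infinite {b : D.S // b ∉ v.1.support} :=
      (v.1.support.finite_toSet.infinite_compl).to_subtype
    refine Set.infinite_univ (α := {b : D.S // b ∉ v.1.support}) ?_
    refine ((hg.preimage hf.injOn).union
      (hg.preimage (f := fun b : {b : D.S // b ∉ v.1.support} => basicVec D Sd b.1) ?_)).subset
        fun b _ => hsplit b
    intro b _ b' _ h
    exact Subtype.ext (Finsupp.single_left_injective Sd.e_ne (congrArg Subtype.val h))
  refine Subtype.ext (Equiv.ext fun u => ?_)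
  by_contra hne
  obtain ⟨i, hi⟩ : ∃ i, ((g : Equiv.Perm (D.S →₀ Sd.A)) u + u) i ≠ 0 := by
    by_contra h
    push Not at h
    refine hne (Finsupp.ext fun i => ?_)
    have hi := h i
    rw [Finsupp.add_apply, add_eq_zero_iff_eq_neg, neg_eq] at hi
    exact hi
  obtain ⟨r, s, hrs⟩ := Sd.sep _ hi
  set d := (g : Equiv.Perm (D.S →₀ Sd.A)) u + u with hd
  have hds : d i * (s * Sd.e) ≠ 0 := fun h => hrs (by
    rw [show Sd.e * r * d i * s * Sd.e = Sd.e * r * (d i * (s * Sd.e)) by simp only [mul_assoc],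
      h, mul_zero])
  have hfix : (g : Equiv.Perm (D.S →₀ Sd.A)) (rmul u (s * Sd.e)) = rmul u (s * Sd.e) := by
    by_cases h0 : rmul u (s * Sd.e) = 0
    · rw [h0, map_zero' hlin]
    · have hE : rmul (rmul u (s * Sd.e)) Sd.e = rmul u (s * Sd.e) := by
        ext j
        simp [mul_assoc, Sd.idem]
      exact congrArg Subtype.val (hall ⟨_, h0, hE⟩)
  apply hds
  have h := DFunLike.congr_fun ((hlin.2 u (s * Sd.e)).symm.trans hfix) i
  simp only [rmul_apply] at h
  rw [hd, Finsupp.add_apply, add_mul, h, add_self_zero]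

/-- The group of type A. -/
def typeA : TypeA where
  S := Vec D Sd
  G := (lin (PermData.S D) (Seed.A Sd) (PermData.P D))
  infinite := infinite_vec D Sd
  fp := by
    have : Nontrivial Sd.A := ⟨⟨Sd.e, 0, Sd.e_ne⟩⟩
    exact isFinitelyPresented_lin D Sd.fp ⟨Sd.sw.toRingHom, Sd.s₀, Sd.s₁, Sd.t₀, Sd.t₁,
      Sd.t₀_s₀, Sd.t₁_s₁, Sd.t₀_s₁, Sd.t₁_s₀, Sd.sw_eq⟩
  trans2 := trans2 D Sd
  stab_fg := stab_fg D Sd
  no_finitary := no_finitary D Sd

end

end Vale.Agent.P193.Bh.Linear

namespace Vale.Agent.P193.Bh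

open Linear in
/-- The linear group over a seed has an action of type A and contains the units given. -/
theorem linearGoal : LinearGoal := by
  classical
  intro D Sd G _ _ u hu
  have := D.infinite
  obtain ⟨i⟩ := (inferInstance : Nonempty D.S)
  refine ⟨typeA D Sd, (((diag i).comp u).codRestrict (lin D.S Sd.A D.P) fun g =>
    diag_mem_lin D.P Sd.sw.toRingHom Sd.t₀_s₀ Sd.t₁_s₁ Sd.t₀_s₁ Sd.t₁_s₀ Sd.sum_st Sd.sw_eq i
      (u g)), fun g h heq => hu (Units.ext ?_)⟩
  have h1 := DFunLike.congr_fun (congrArg (fun e : lin D.S Sd.A D.P =>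
    (e : Equiv.Perm (D.S →₀ Sd.A)) (Finsupp.single i 1)) heq) i
  change diag i (u g) (Finsupp.single i 1) i = diag i (u h) (Finsupp.single i 1) i at h1
  simpa [diag_apply] using h1

end Vale.Agent.P193.Bh
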