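import Vale.Agent.P193.Bh.Interface
import Vale.Agent.P193.Bh.Group.Linear.Pres

/-!
# P193 M1: moving vectors by words
-/

namespace Vale.Agent.P193.Bh.Linear

open scoped Classical

noncomputable section

variable {S A : Type} [Ring A] [Algebra (ZMod 2) A]

lemma wordX_append (w w' : List (S × S × A)) :
    wordX X (w ++ w') = wordX X w * wordX X w' := by
  simp [wordX, List.map_append, List.prod_append]

/-- Letters with one second index, added at one coordinate. -/
lemma wordX_gather {b : S} {F : List S} (hb : b ∉ F) (hF : F.Nodup) (ρ : S → A) (v : S →₀ A) :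
    wordX X (F.map fun i => (b, i, ρ i)) v =
      v + Finsupp.single b (F.map fun i => ρ i * v i).sum := by
  induction F with
  | nil => simp [wordX]
  | cons i F ih =>
    simp only [List.mem_cons, not_or] at hb
    rw [List.nodup_cons] at hF
    rw [List.map_cons, wordX_cons, Equiv.Perm.mul_apply, ih hb.2 hF.2, X_apply hb.1,
      List.map_cons, List.sum_cons, Finsupp.single_add, Finsupp.add_apply,
      Finsupp.single_eq_of_ne (Ne.symm hb.1), add_zero]
    abel

/-- Letters with one second index `b`, changing the coordinates in `F`. -/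
lemma wordX_spread {b : S} {F : List S} (hb : b ∉ F) (hF : F.Nodup) (γ : S → A) (v : S →₀ A)
    (j : S) :
    wordX X (F.map fun i => (i, b, γ i)) v j = if j ∈ F then v j + γ j * v b else v j := by
  induction F generalizing j with
  | nil => simp [wordX]
  | cons i F ih =>
    simp only [List.mem_cons, not_or] at hb
    rw [List.nodup_cons] at hF
    rw [List.map_cons, wordX_cons, Equiv.Perm.mul_apply, X_apply_coord (Ne.symm hb.1), ih hb.2 hF.2,
      ih hb.2 hF.2, if_neg hb.2]
    by_cases hj : j = i
    · subst hj; simp [hF.1]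
    · simp [hj]

lemma wordX_spread_fix {b : S} {F : List S} (hb : b ∉ F) (hF : F.Nodup) (γ : S → A) (v : S →₀ A)
    (hv : v b = 0) : wordX X (F.map fun i => (i, b, γ i)) v = v :=
  Finsupp.ext fun j => by rw [wordX_spread hb hF γ v j, hv]; simp

omit [Algebra (ZMod 2) A] in
lemma linear_apply_sum {g : Equiv.Perm (S →₀ A)} (hg : g ∈ rightLinear) (v : S →₀ A) :
    g v = v.sum fun i a => rmul (g (Finsupp.single i 1)) a := by
  induction v using Finsupp.induction_linear with
  | zero =>
    have h := hg.1 0 0
    rw [add_zero] at h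
    simpa using h
  | add u v hu hv =>
    rw [hg.1, hu, hv, Finsupp.sum_add_index' (fun i => by ext; simp)
      (fun i a b => by ext; simp [mul_add])]
  | single i a =>
    rw [Finsupp.sum_single_index (by ext; simp), ← hg.2]
    congr 1
    ext j
    simp [Finsupp.single_apply]

omit [Algebra (ZMod 2) A] in
lemma map_zero' {g : Equiv.Perm (S →₀ A)} (hg : g ∈ rightLinear) : g 0 = 0 := by
  have h := hg.1 0 0
  rw [add_zero] at h
  simpa using h

lemma wordX_mem_rightLinear (w : List (S × S × A)) : wordX X w ∈ rightLinear := by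
  refine list_prod_mem ?_
  intro g hg
  obtain ⟨l, -, rfl⟩ := List.mem_map.1 hg
  exact X_mem_rightLinear _ _ _

lemma wordX_reverse_mul (w : List (S × S × A)) : wordX X w.reverse * wordX X w = 1 := by
  induction w with
  | nil => simp [wordX]
  | cons l w ih =>
    rw [List.reverse_cons, wordX_append, wordX_cons, wordX_cons,
      show wordX X ([] : List (S × S × A)) = 1 from rfl, mul_one, mul_assoc,
      ← mul_assoc (X l.1 l.2.1 l.2.2), X_self, one_mul, ih]

lemma wordX_coord_of_notMem (w : List (S × S × A)) (hw : ∀ l ∈ w, l.1 ≠ l.2.1) (i : S)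
    (hi : ∀ l ∈ w, l.1 ≠ i) (v : S →₀ A) : wordX X w v i = v i := by
  induction w with
  | nil => simp [wordX]
  | cons l w ih =>
    rw [wordX_cons, Equiv.Perm.mul_apply, X_apply_coord (hw l (List.mem_cons_self ..)),
      if_neg (fun e => hi l (List.mem_cons_self ..) e.symm),
      ih (fun m hm => hw m (List.mem_cons_of_mem _ hm)) fun m hm => hi m (List.mem_cons_of_mem _ hm)]

lemma wordX_single_of_notMem (w : List (S × S × A)) (hw : ∀ l ∈ w, l.1 ≠ l.2.1) (i : S)
    (hi : ∀ l ∈ w, l.2.1 ≠ i) (r : A) : wordX X w (Finsupp.single i r) = Finsupp.single i r := by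
  induction w with
  | nil => simp [wordX]
  | cons l w ih =>
    rw [wordX_cons, Equiv.Perm.mul_apply,
      ih (fun m hm => hw m (List.mem_cons_of_mem _ hm)) (fun m hm => hi m (List.mem_cons_of_mem _ hm)),
      X_apply (hw l (List.mem_cons_self ..)), Finsupp.single_eq_of_ne (hi l (List.mem_cons_self ..))]
    simp

omit [Algebra (ZMod 2) A] in
lemma rmul_single (i : S) (r s : A) : rmul (Finsupp.single i r) s = Finsupp.single i (r * s) := by
  ext j
  by_cases h : j = i <;> simp [h]

end

end Vale.Agent.P193.Bh.Linear
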