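import Vale.Agent.P193.Bh.Group.Linear.Moves

/-!
# P193 M1: the action on nonzero vectors over the idempotent is two-transitive
-/

namespace Vale.Agent.P193.Bh.Linear

open scoped Classical

noncomputable section

variable {S : Type} (Sd : Seed)

/-- A nonzero entry can be sent to `e` by a left multiplication. -/
lemma exists_left {c : Sd.A} (hc : c ≠ 0) (hce : c * Sd.e = c) : ∃ ρ : Sd.A, ρ * c = Sd.e := by
  obtain ⟨r, s, hrs⟩ := Sd.sep c hc
  refine ⟨Sd.e * r, ?_⟩
  have h : Sd.e * r * c * s * Sd.e = (Sd.e * r * c) * (Sd.e * s * Sd.e) := by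
    conv_lhs => rw [← hce]
    simp only [mul_assoc]
  have h1 : Sd.e * s * Sd.e = Sd.e := by
    rcases Sd.corner s with h0 | h0
    · exact absurd (by rw [h, h0, mul_zero]) hrs
    · exact h0
  rcases Sd.corner (r * c) with h0 | h0
  · refine absurd ?_ hrs
    rw [h, ← hce, h1]
    simp only [mul_assoc] at h0 ⊢
    rw [Sd.idem, h0]
  · conv_lhs => rw [← hce]
    simpa only [mul_assoc] using h0

lemma rmul_fixed {g : Equiv.Perm (S →₀ Sd.A)} (hg : g ∈ rightLinear) {v : S →₀ Sd.A}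
    (hv : rmul v Sd.e = v) : rmul (g v) Sd.e = g v := by rw [← hg.2, hv]

lemma entry_fixed {v : S →₀ Sd.A} (hv : rmul v Sd.e = v) (i : S) : v i * Sd.e = v i := by
  have h := DFunLike.congr_fun hv i
  simpa using h

/-- A pair of distinct vectors can be moved to two coordinate vectors. -/
lemma exists_pair_normal [Infinite S] (P : Type) [Group P] [MulAction P S] (v w : S →₀ Sd.A)
    (hv0 : v ≠ 0) (hw0 : w ≠ 0) (hv : rmul v Sd.e = v) (hw : rmul w Sd.e = w) (hvw : v ≠ w) :
    ∃ g ∈ lin S Sd.A P, ∃ a b : S, a ≠ b ∧ g v = Finsupp.single a Sd.e ∧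
      g w = Finsupp.single b Sd.e := by
  have hclear : ∀ (u : S →₀ Sd.A) (d : S), rmul u Sd.e = u → u d = Sd.e →
      ∃ g ∈ lin S Sd.A P, g u = Finsupp.single d Sd.e ∧ ∀ z : S →₀ Sd.A, z d = 0 → g z = z := by
    intro u d hu hud
    let F := (u.support.erase d).toList
    have hd : d ∉ F := by simp [F]
    have hF : F.Nodup := Finset.nodup_toList _
    refine ⟨wordX X (F.map fun i => (i, d, u i)), wordX_mem_lin P _ ?_,
      Finsupp.ext fun j => ?_, fun z hz => wordX_spread_fix hd hF _ z hz⟩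
    · intro l hl
      obtain ⟨i, hi, rfl⟩ := List.mem_map.1 hl
      exact fun e => hd ((show i = d from e) ▸ hi)
    · rw [wordX_spread hd hF, hud, entry_fixed Sd hu, add_self_zero]
      by_cases hj : j = d
      · subst hj; rw [if_neg hd, hud, Finsupp.single_eq_same]
      · rw [Finsupp.single_eq_of_ne hj]
        by_cases hjF : j ∈ F
        · rw [if_pos hjF]
        · rw [if_neg hjF]
          simpa [F, hj] using hjF
  have hsnd : ∀ (b : S) (u : S →₀ Sd.A), rmul u Sd.e = u → (∃ a, a ≠ b ∧ u a ≠ 0) →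
      ∃ g ∈ lin S Sd.A P, ∃ d, b ≠ d ∧ g (Finsupp.single b Sd.e) = Finsupp.single b Sd.e ∧
        g u = Finsupp.single d Sd.e := by
    intro b u hu ⟨a, hab, ha⟩
    obtain ⟨ρ, hρ⟩ := exists_left Sd ha (entry_fixed Sd hu a)
    obtain ⟨d, hd⟩ := Infinite.exists_notMem_finset (insert b (insert a u.support))
    simp only [Finset.mem_insert, Finsupp.mem_support_iff, not_or, not_not] at hd
    obtain ⟨hdb, hda, hd0⟩ := hd
    have hX : X d a ρ ∈ lin S Sd.A P := X_mem_lin P hda ρ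
    have hfix : X d a ρ (Finsupp.single b Sd.e) = Finsupp.single b Sd.e := by
      rw [X_apply hda, Finsupp.single_eq_of_ne hab]
      simp
    obtain ⟨g, hg, hgu, hgz⟩ := hclear (X d a ρ u) d
      (rmul_fixed Sd (X_mem_rightLinear _ _ _) hu)
      (by rw [X_apply_coord hda, if_pos rfl, hd0, hρ, zero_add])
    refine ⟨g * X d a ρ, mul_mem hg hX, d, Ne.symm hdb, ?_, ?_⟩
    · rw [Equiv.Perm.mul_apply, hfix, hgz _ (Finsupp.single_eq_of_ne hdb)]
    · rw [Equiv.Perm.mul_apply, hgu]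
  obtain ⟨a, ha⟩ : ∃ a, v a ≠ 0 := by
    by_contra h
    push Not at h
    exact hv0 (Finsupp.ext h)
  obtain ⟨a', ha'⟩ := Infinite.exists_notMem_finset ({a} : Finset S)
  obtain ⟨g1, hg1, b, -, -, h1⟩ := hsnd a' v hv ⟨a, by simpa [eq_comm] using ha', ha⟩
  have hne : g1 w ≠ Finsupp.single b Sd.e := fun e => hvw (g1.injective (h1.trans e.symm))
  have hw1 : rmul (g1 w) Sd.e = g1 w := rmul_fixed Sd (lin_le P hg1) hw
  by_cases hc : ∃ c, c ≠ b ∧ g1 w c ≠ 0
  · obtain ⟨g2, hg2, d, hbd, h2, h3⟩ := hsnd b (g1 w) hw1 hc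
    exact ⟨g2 * g1, mul_mem hg2 hg1, b, d, hbd, by rw [Equiv.Perm.mul_apply, h1, h2],
      by rw [Equiv.Perm.mul_apply, h3]⟩
  push Not at hc
  have hcb : g1 w b ≠ 0 := fun h => hw0 (by
    refine g1.injective (Finsupp.ext fun c => ?_)
    rw [map_zero' (lin_le P hg1), Finsupp.zero_apply]
    by_cases hcb : c = b
    · rw [hcb, h]
    · exact hc c hcb)
  have hne' : (1 - Sd.e) * g1 w b ≠ 0 := by
    intro h
    rw [sub_mul, one_mul, sub_eq_zero] at h
    have h2 := entry_fixed Sd hw1 b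
    rcases Sd.corner (g1 w b) with h0 | h0
    · exact hcb (by rw [h, ← h2, ← mul_assoc]; exact h0)
    · refine hne (Finsupp.ext fun c => ?_)
      by_cases hcb' : c = b
      · subst hcb'
        rw [Finsupp.single_eq_same, h, ← h2, ← mul_assoc]
        exact h0
      · rw [Finsupp.single_eq_of_ne hcb', hc c hcb']
  obtain ⟨d, hd⟩ := Infinite.exists_notMem_finset ({b} : Finset S)
  have hdb : d ≠ b := by simpa using hd
  have hX : X d b (1 - Sd.e) ∈ lin S Sd.A P := X_mem_lin P hdb _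
  have hfix : X d b (1 - Sd.e) (Finsupp.single b Sd.e) = Finsupp.single b Sd.e := by
    rw [X_apply hdb, Finsupp.single_eq_same, sub_mul, one_mul, Sd.idem, sub_self]
    simp
  obtain ⟨g2, hg2, d', hbd, h2, h3⟩ := hsnd b (X d b (1 - Sd.e) (g1 w))
    (rmul_fixed Sd (X_mem_rightLinear _ _ _) hw1)
    ⟨d, hdb, by rwa [X_apply_coord hdb, if_pos rfl, hc d hdb, zero_add]⟩
  exact ⟨g2 * X d b (1 - Sd.e) * g1, mul_mem (mul_mem hg2 hX) hg1, b, d', hbd,
    by rw [Equiv.Perm.mul_apply, Equiv.Perm.mul_apply, h1, hfix, h2],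
    by rw [Equiv.Perm.mul_apply, Equiv.Perm.mul_apply, h3]⟩

end

end Vale.Agent.P193.Bh.Linear
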